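import Vale.Agent.P167.H460.BQ.Asm
import Vale.Agent.P167.QB.Brf4

/-!
# P167, general `q`: `BrQ` from `S_beta`
-/

set_option autoImplicit false

namespace Vale.Agent.P167.BQ460

open MeasureTheory Vale.Agent.P167
open Vale.Agent.P167.FK (RSW)
open Vale.Agent.P167.H192.Q (SRSW)
open Vale.Agent.P167.H519 (IsLim)
open Vale.Agent.P167.H411.B7 (Shp)

/-- **[BRQ] from (BETA).** -/
theorem brQ_beta {μ : ℝ} {P : Measure Cfg} (h0 : 0 < μ) (h1 : μ < Real.pi / 3)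
    (hR : RSW (2 * Real.cos μ)) (hS : SRSW (2 * Real.cos μ)) (hP : IsLim (2 * Real.cos μ) P)
    (hB : QB.S_beta μ) {ε : ℝ} (hε : 0 < ε) :
    ∃ χ : ℂ → ℝ, Shp Complex.I χ ∧ QT.BrQ h0 h1.le χ ε :=
  brQ_of h0 h1.le hR hS (QB.Brf.brf h0 h1 hR hS hP hB) hε

end Vale.Agent.P167.BQ460
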