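import Vale.Agent.P167.H411.Q.NDefs
import Vale.Agent.P167.H436.ND.Defs
import Vale.Agent.P167.QB.Brc
import Vale.Agent.P167.H167.MajDat
import Vale.Agent.P167.H167.IEQ

/-!
# P167, general `q`, assembly of `BrQ`: the bumps

The cell masses of the bumps `fb χ I c η` at mesh `1 / N`, `c` an integer: they are bumps in the sense of
`QB.Bq'` (any shape) and of `H436.ND.Bp` (the shape `χ₀` in the core of the ring); they are translates of
each other. `two K χ₀` is the shape with two scales of ratio `K`.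
-/

set_option autoImplicit false

open Set Metric Filter Topology MeasureTheory
open scoped ComplexConjugate ContDiff

namespace Vale.Agent.P167.BQ460

open Vale.Agent.P167.CA (cms cl cs mem_cl cms_eq cms_smul cms_add cms_sub)
open Vale.Agent.P167.H411.Q (fb)
open Vale.Agent.P167.H411.B7 (Shp)
open Vale.Agent.P167.BR (sites)
open Vale.Agent.P167.H167 (exists_of_cms cms_le)

/-! ### cell masses -/

theorem box_sub (M : ℕ) : {z : ℂ | |z.re| < M ∧ |z.im| < M} ⊆
    interior (E6.region 1 (Finset.Ico (-(M : ℤ)) M ×ˢ Finset.Ico (-(M : ℤ)) M)) := by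
  have ho : IsOpen {z : ℂ | |z.re| < (M : ℝ) ∧ |z.im| < (M : ℝ)} :=
    (isOpen_lt (continuous_abs.comp Complex.continuous_re) continuous_const).inter
      (isOpen_lt (continuous_abs.comp Complex.continuous_im) continuous_const)
  refine interior_maximal (fun z hz => ?_) ho
  obtain ⟨h1, h2⟩ := hz
  rw [abs_lt] at h1 h2
  rw [CA.mem_region]
  refine ⟨(⌊z.re⌋, ⌊z.im⌋), ?_, Int.floor_le _, (Int.lt_floor_add_one _).le, Int.floor_le _,
    (Int.lt_floor_add_one _).le⟩
  rw [Finset.mem_product, Finset.mem_Ico, Finset.mem_Ico]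
  refine ⟨⟨?_, ?_⟩, ?_, ?_⟩
  · exact Int.le_floor.2 (by push_cast; linarith)
  · exact Int.floor_lt.2 (by exact_mod_cast h1.2)
  · exact Int.le_floor.2 (by push_cast; linarith)
  · exact Int.floor_lt.2 (by exact_mod_cast h2.2)

/-- The total of the cell masses. -/
theorem finsum_cms {f : ℂ → ℝ} (hf : Integrable f) (hs : HasCompactSupport f) {N : ℕ} (hN : 0 < N) :
    ∑ᶠ z, cms f (1 / N) z = ∫ x, f x := by
  obtain ⟨C, hC⟩ := hs.isCompact.isBounded.exists_norm_le
  obtain ⟨M, hM⟩ := exists_nat_gt C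
  have h0 : ∀ x, f x ≠ 0 → x ∈ interior (E6.region 1
      (Finset.Ico (-(M : ℤ)) M ×ˢ Finset.Ico (-(M : ℤ)) M)) := by
    intro x hx
    have h1 : ‖x‖ ≤ C := hC x (subset_tsupport f hx)
    exact box_sub M ⟨lt_of_le_of_lt ((Complex.abs_re_le_norm x).trans h1) hM,
      lt_of_le_of_lt ((Complex.abs_im_le_norm x).trans h1) hM⟩
  have h1 := CA.sum_cms hN hf h0 (fun _ => 1)
  simp only [mul_one] at h1
  rw [← h1]
  refine finsum_eq_sum_of_support_subset _ fun z hz => ?_
  obtain ⟨x, hx, rfl⟩ := exists_of_cms hz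
  exact CA.cs_mem hN (h0 x hx)

/-- Translation. -/
theorem cms_trans (f : ℂ → ℝ) {N : ℕ} (hN : 0 < N) (c : ℤ) (s : ℤ × ℤ) :
    cms (fun z => f (z - c)) (1 / N) s = cms f (1 / N) (s - (c * N, 0)) := by
  have hN' : (0 : ℝ) < N := by exact_mod_cast hN
  rw [cms_eq, cms_eq, ← integral_indicator (CA.measurableSet_cl N s),
    ← integral_indicator (CA.measurableSet_cl N _),
    ← integral_sub_right_eq_self ((cl N (s - (c * N, 0))).indicator f) (c : ℂ)]
  refine integral_congr_ae (Eventually.of_forall fun z => ?_)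
  simp only [Set.indicator]
  have e : z ∈ cl N s ↔ z - c ∈ cl N (s - (c * N, 0)) := by
    rw [mem_cl, mem_cl]
    unfold cs
    have e1 : (z - (c : ℂ)).re * (N : ℝ) = z.re * N - ((c * N : ℤ) : ℝ) := by
      simp; ring
    have e2 : (z - (c : ℂ)).im * (N : ℝ) = z.im * N := by simp
    rw [e1, e2, Int.floor_sub_intCast]
    constructor
    · intro h; rw [← h]; ext
      · simp; ring
      · simp
    · intro h
      have h1 := congrArg Prod.fst h
      have h2 := congrArg Prod.snd h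
      simp only [Prod.fst_sub, Prod.snd_sub] at h1 h2
      ext
      · simp only; linarith
      · simp only; linarith
  by_cases h : z ∈ cl N s
  · rw [if_pos h, if_pos (e.1 h)]
  · rw [if_neg h, if_neg (fun h' => h (e.2 h'))]

/-! ### the bumps -/

theorem fb_eq (χ : ℂ → ℝ) (c : ℂ) (η : ℝ) (z : ℂ) :
    fb χ Complex.I c η z = χ ((z - c) / η) / η ^ 2 := by
  unfold fb
  congr 2
  rw [Complex.conj_I]
  have : Complex.I * -Complex.I = 1 := by rw [mul_neg, Complex.I_mul_I, neg_neg]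
  rw [this, one_mul]

theorem fb_cont {χ : ℂ → ℝ} (hχ : Continuous χ) (c : ℂ) (η : ℝ) :
    Continuous (fb χ Complex.I c η) := by
  have e : fb χ Complex.I c η = fun z => χ ((z - c) / η) / η ^ 2 := funext (fb_eq χ c η)
  rw [e]
  exact (hχ.comp ((continuous_id.sub continuous_const).div_const _)).div_const _

theorem fb_cpt {χ : ℂ → ℝ} (hχ : HasCompactSupport χ) (c : ℂ) {η : ℝ} (hη : 0 < η) :
    HasCompactSupport (fb χ Complex.I c η) := by
  obtain ⟨C, hC⟩ := hχ.isCompact.isBounded.exists_norm_le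
  refine HasCompactSupport.intro (isCompact_closedBall c (η * |C|)) fun z hz => ?_
  rw [fb_eq]
  have h1 : χ ((z - c) / η) = 0 := by
    by_contra h
    apply hz
    have h2 := hC _ (subset_tsupport χ h)
    rw [norm_div, Complex.norm_real, Real.norm_of_nonneg hη.le, div_le_iff₀ hη] at h2
    rw [mem_closedBall, dist_eq_norm]
    refine h2.trans ?_
    rw [mul_comm]
    exact mul_le_mul_of_nonneg_left (le_abs_self C) hη.le
  rw [h1, zero_div]

theorem fb_int {χ : ℂ → ℝ} (hc : Continuous χ) (hs : HasCompactSupport χ) (c : ℂ) {η : ℝ}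
    (hη : 0 < η) : Integrable (fb χ Complex.I c η) :=
  (fb_cont hc c η).integrable_of_hasCompactSupport (fb_cpt hs c hη)

theorem fb_mass {χ : ℂ → ℝ} (c : ℂ) {η : ℝ} (hη : 0 < η) :
    ∫ z, fb χ Complex.I c η z = ∫ z, χ z := by
  simp only [fb_eq]
  exact H411.B7.integral_scale χ c hη

/-- The lattice bump. -/
noncomputable def lb (χ : ℂ → ℝ) (c : ℤ) (η : ℝ) (N : ℕ) : ℤ × ℤ → ℝ :=
  cms (fb χ Complex.I (c : ℂ) η) (1 / N)

theorem lb_trans (χ : ℂ → ℝ) (c : ℤ) (η : ℝ) {N : ℕ} (hN : 0 < N) (s : ℤ × ℤ) :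
    lb χ c η N s = lb χ 0 η N (s - (c * N, 0)) := by
  unfold lb
  rw [← cms_trans _ hN]
  congr 1
  funext z
  rw [fb_eq, fb_eq]
  simp

theorem lb_sum {χ : ℂ → ℝ} (hc : Continuous χ) (hs : HasCompactSupport χ) (c : ℤ) {η : ℝ}
    (hη : 0 < η) {N : ℕ} (hN : 0 < N) : ∑ᶠ z, lb χ c η N z = ∫ z, χ z := by
  unfold lb
  rw [finsum_cms (fb_int hc hs _ hη) (fb_cpt hs _ hη) hN, fb_mass _ hη]

theorem lb_nonneg {χ : ℂ → ℝ} (h : ∀ z, 0 ≤ χ z) (c : ℤ) (η : ℝ) (N : ℕ) (s : ℤ × ℤ) :
    0 ≤ lb χ c η N s := by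
  unfold lb
  rw [cms_eq]
  refine setIntegral_nonneg (CA.measurableSet_cl N s) fun z _ => ?_
  rw [fb_eq]
  exact div_nonneg (h _) (sq_nonneg _)

theorem lb_le {χ : ℂ → ℝ} {C : ℝ} (h : ∀ z, |χ z| ≤ C) (c : ℤ) {η : ℝ} (hη : 0 < η) {N : ℕ}
    (hN : 0 < N) (s : ℤ × ℤ) : |lb χ c η N s| ≤ C / (η * N) ^ 2 := by
  unfold lb
  refine (cms_le (C := C / η ^ 2) (fun z => ?_) hN s).trans (le_of_eq ?_)
  · rw [fb_eq, abs_div, abs_of_nonneg (sq_nonneg η)]
    exact div_le_div_of_nonneg_right (h _) (sq_nonneg _)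
  · rw [mul_pow, div_div]

/-- The sites which carry the bump. -/
theorem lb_supp {χ : ℂ → ℝ} {c : ℤ} {η : ℝ} (hη : 0 < η) {N : ℕ} (hN : 0 < N) {s : ℤ × ℤ}
    (h : lb χ c η N s ≠ 0) : ∃ u : ℂ, χ u ≠ 0 ∧ (s.1 : ℝ) - c * N ≤ u.re * (η * N) + 1 ∧
      u.re * (η * N) ≤ s.1 - c * N ∧ (s.2 : ℝ) ≤ u.im * (η * N) + 1 ∧ u.im * (η * N) ≤ s.2 := by
  obtain ⟨x, hx, hs⟩ := exists_of_cms h
  rw [fb_eq] at hx
  refine ⟨(x - c) / η, fun h' => hx (by rw [h', zero_div]), ?_⟩
  have e1 : ((x - (c : ℂ)) / (η : ℂ)).re * (η * N) = x.re * N - c * N := by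
    rw [Complex.div_ofReal_re]; simp; field_simp
  have e2 : ((x - (c : ℂ)) / (η : ℂ)).im * (η * N) = x.im * N := by
    rw [Complex.div_ofReal_im]; simp; field_simp
  rw [e1, e2, ← hs]
  unfold cs
  have h1 := Int.floor_le (x.re * N)
  have h2 := (Int.lt_floor_add_one (x.re * N)).le
  have h3 := Int.floor_le (x.im * N)
  have h4 := (Int.lt_floor_add_one (x.im * N)).le
  push_cast
  refine ⟨by linarith, by linarith, by linarith, by linarith⟩

/-! ### the two shapes -/

/-- A shape in the core of the ring. -/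
structure Shp0 (χ : ℂ → ℝ) : Prop where
  smooth : ContDiff ℝ ∞ χ
  supp : ∀ u, χ u ≠ 0 → |u.re| ≤ 1 / 16 ∧ |u.im - 3 / 4| ≤ 1 / 16
  nonneg : ∀ z, 0 ≤ χ z
  mass : ∫ z, χ z = 1
  le : ∀ z, χ z ≤ 1000

theorem exists_shp0 : ∃ χ, Shp0 χ := by
  set B : ContDiffBump ((3 / 4 : ℝ) * Complex.I : ℂ) := ⟨1 / 32, 1 / 16, by norm_num, by norm_num⟩
    with hB
  refine ⟨B.normed volume, B.contDiff_normed, fun u hu => ?_, B.nonneg_normed, B.integral_normed,
    fun z => ?_⟩
  · have h1 : u ∈ ball ((3 / 4 : ℝ) * Complex.I : ℂ) (1 / 16) := by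
      have h2 : Function.support (B.normed volume) = ball ((3 / 4 : ℝ) * Complex.I : ℂ) B.rOut :=
        B.support_normed_eq
      rw [← show B.rOut = 1 / 16 from rfl, ← h2]
      exact hu
    rw [mem_ball, dist_eq_norm] at h1
    constructor
    · have h2 := Complex.abs_re_le_norm (u - (3 / 4 : ℝ) * Complex.I)
      simp at h2
      exact (h2.trans_lt (by simpa using h1)).le
    · have h2 := Complex.abs_im_le_norm (u - (3 / 4 : ℝ) * Complex.I)
      simp at h2
      exact (h2.trans_lt (by simpa using h1)).le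
  · refine (B.normed_le_div_measure_closedBall_rIn volume z).trans ?_
    have h1 : volume.real (closedBall ((3 / 4 : ℝ) * Complex.I : ℂ) B.rIn) = Real.pi / 1024 := by
      rw [measureReal_def, Complex.volume_closedBall, show B.rIn = 1 / 32 from rfl]
      rw [ENNReal.toReal_mul, ENNReal.toReal_pow, ENNReal.toReal_ofReal (by norm_num)]
      simp
      ring
    rw [h1, div_le_iff₀ (by positivity)]
    nlinarith [Real.pi_gt_d2]

/-- The shape with two scales of ratio `K`. -/
noncomputable def two (K : ℤ) (χ : ℂ → ℝ) (u : ℂ) : ℝ := (χ u + (K : ℝ) ^ 2 * χ (K * u)) / 2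

theorem two_shp {K : ℤ} (hK : 1 ≤ K) {χ : ℂ → ℝ} (h : Shp0 χ) : Shp Complex.I (two K χ) := by
  have hK' : (1 : ℝ) ≤ K := by exact_mod_cast hK
  have hK0 : (0 : ℝ) < K := by linarith
  refine ⟨?_, ?_, fun z => ?_, ?_⟩
  · unfold two
    have h1 : ContDiff ℝ ∞ fun u : ℂ => (K : ℂ) * u := contDiff_const.mul contDiff_id
    exact (h.smooth.add (contDiff_const.mul (h.smooth.comp h1))).div_const _
  · have hcl : IsClosed {u : ℂ | |u.re| ≤ 1 / 16 ∧ 11 / (16 * K) ≤ u.im ∧ u.im ≤ 13 / 16} := by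
      refine ((isClosed_le (continuous_abs.comp Complex.continuous_re) continuous_const).inter
        ((isClosed_le continuous_const Complex.continuous_im).inter
          (isClosed_le Complex.continuous_im continuous_const)))
    have hsub : tsupport (two K χ) ⊆
        {u : ℂ | |u.re| ≤ 1 / 16 ∧ 11 / (16 * K) ≤ u.im ∧ u.im ≤ 13 / 16} := by
      refine closure_minimal (fun u hu => ?_) hcl
      rw [Function.mem_support] at hu
      have e1 : (11 : ℝ) / (16 * K) ≤ 11 / 16 := by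
        rw [div_le_div_iff₀ (by positivity) (by norm_num)]
        nlinarith
      by_cases h1 : χ u = 0
      · have h2 : χ (K * u) ≠ 0 := fun h3 => hu (by unfold two; rw [h1, h3]; simp)
        obtain ⟨a1, a2⟩ := h.supp _ h2
        have e2 : ((K : ℂ) * u).re = K * u.re := by simp
        have e3 : ((K : ℂ) * u).im = K * u.im := by simp
        rw [e2, abs_mul, abs_of_pos hK0] at a1
        rw [e3, abs_le] at a2
        refine ⟨?_, ?_, ?_⟩
        · nlinarith [abs_nonneg u.re]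
        · rw [div_le_iff₀ (by positivity)]
          nlinarith
        · have : 0 < u.im := by
            by_contra hcon
            push Not at hcon
            nlinarith
          nlinarith
      · obtain ⟨a1, a2⟩ := h.supp _ h1
        rw [abs_le] at a2
        exact ⟨a1, by linarith, by linarith⟩
    intro u hu
    obtain ⟨a1, a2, a3⟩ := hsub hu
    have h3 : 0 < u.im := lt_of_lt_of_le (by positivity) a2
    refine ⟨?_, ?_⟩
    · rw [mem_closedBall_zero_iff]
      refine (Complex.norm_le_abs_re_add_abs_im u).trans ?_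
      rw [abs_of_pos h3]
      linarith
    · show 0 < (u * conj Complex.I).re
      rw [Complex.conj_I]
      simpa using h3
  · unfold two
    have h1 := h.nonneg z
    have h2 := h.nonneg (K * z)
    positivity
  · unfold two
    have hc : Continuous χ := h.smooth.continuous
    have hs : HasCompactSupport χ := by
      refine HasCompactSupport.intro (isCompact_closedBall (0 : ℂ) 1) fun u hu => ?_
      by_contra h0
      obtain ⟨a1, a2⟩ := h.supp u h0
      apply hu
      rw [mem_closedBall_zero_iff]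
      refine (Complex.norm_le_abs_re_add_abs_im u).trans ?_
      rw [abs_le] at a2
      have : |u.im| ≤ 13 / 16 := abs_le.2 ⟨by linarith, by linarith⟩
      linarith
    have e1 : ∫ z : ℂ, (K : ℝ) ^ 2 * χ (K * z) = 1 := by
      have h1 := H411.B7.integral_scale χ 0 (η := 1 / K) (by positivity)
      rw [h.mass] at h1
      rw [← h1]
      refine integral_congr_ae (Eventually.of_forall fun z => ?_)
      simp only [sub_zero]
      have e2 : z / ((1 / (K : ℝ) : ℝ) : ℂ) = K * z := by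
        push_cast
        rw [div_div_eq_mul_div, div_one, mul_comm]
      rw [e2]
      field_simp
    have hi1 : Integrable χ := hc.integrable_of_hasCompactSupport hs
    have hi2 : Integrable fun z : ℂ => (K : ℝ) ^ 2 * χ (K * z) := by
      by_contra hcon
      rw [integral_undef hcon] at e1
      norm_num at e1
    rw [integral_div, integral_add hi1 hi2, h.mass, e1]
    norm_num

theorem Shp0.cpt {χ : ℂ → ℝ} (h : Shp0 χ) : HasCompactSupport χ := by
  refine HasCompactSupport.intro (isCompact_closedBall (0 : ℂ) 1) fun u hu => ?_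
  by_contra h0
  obtain ⟨a1, a2⟩ := h.supp u h0
  apply hu
  rw [mem_closedBall_zero_iff]
  refine (Complex.norm_le_abs_re_add_abs_im u).trans ?_
  rw [abs_le] at a2
  have : |u.im| ≤ 13 / 16 := abs_le.2 ⟨by linarith, by linarith⟩
  linarith

/-- The lattice bump of the shape with two scales. -/
theorem lb_two {K : ℤ} (hK : 1 ≤ K) {χ : ℂ → ℝ} (h : Shp0 χ) {η : ℝ} (hη : 0 < η) (N : ℕ)
    (s : ℤ × ℤ) : lb (two K χ) 0 η N s = (lb χ 0 η N s + lb χ 0 (η / K) N s) / 2 := by
  have hK0 : (0 : ℝ) < K := by exact_mod_cast (by omega : 0 < K)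
  unfold lb
  have e : fb (two K χ) Complex.I ((0 : ℤ) : ℂ) η = fun z =>
      (1 / 2 : ℝ) * (fb χ Complex.I ((0 : ℤ) : ℂ) η z + fb χ Complex.I ((0 : ℤ) : ℂ) (η / K) z) := by
    funext z
    rw [fb_eq, fb_eq, fb_eq]
    unfold two
    have e1 : (z - ((0 : ℤ) : ℂ)) / ((η / K : ℝ) : ℂ) = K * ((z - ((0 : ℤ) : ℂ)) / η) := by
      push_cast
      field_simp
    rw [e1]
    field_simp
  rw [e, cms_smul, cms_add (fb_int h.smooth.continuous h.cpt _ hη)
    (fb_int h.smooth.continuous h.cpt _ (by positivity))]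
  ring

/-! ### the lattice bumps are bumps -/

/-- **The bump of the ring.** -/
theorem bp_lb {χ : ℂ → ℝ} (h : Shp0 χ) : ∀ η : ℝ, 0 < η → ∀ᶠ N : ℕ in atTop,
    H436.ND.Bp 1000 (0, 0) ⌊η * N / 2⌋ (lb χ 0 η N) := by
  have hC : ∀ u, |χ u| ≤ 1000 := fun u => by rw [abs_of_nonneg (h.nonneg u)]; exact h.le u
  intro η hη
  have h1 : ∀ᶠ N : ℕ in atTop, 44 / η ≤ (N : ℝ) := tendsto_natCast_atTop_atTop.eventually_ge_atTop _
  filter_upwards [h1, eventually_gt_atTop 0] with N hN hN0
  have hX : 44 ≤ η * N := by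
    rw [div_le_iff₀ hη] at hN
    linarith
  have a1 := Int.floor_le (η * N / 2)
  have a2 := Int.lt_floor_add_one (η * N / 2)
  set a : ℤ := ⌊η * N / 2⌋ with ha
  have ha0 : (0 : ℝ) < a := by linarith
  refine ⟨fun z => lb_nonneg h.nonneg _ _ _ _, fun z => ?_, fun z hz => ?_, ?_⟩
  · refine (le_abs_self _).trans ((lb_le (C := 1000) hC 0 hη hN0 z).trans ?_)
    have h2 : (a : ℝ) ^ 2 ≤ (η * N) ^ 2 := by
      apply pow_le_pow_left₀ ha0.le
      linarith
    exact div_le_div₀ (by norm_num) le_rfl (by positivity) h2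
  · obtain ⟨u, hu, g1, g2, g3, g4⟩ := lb_supp hη hN0 hz
    obtain ⟨b1, b2⟩ := h.supp u hu
    rw [abs_le] at b1 b2
    simp only [Int.cast_zero, zero_mul, sub_zero] at g1 g2
    have hXp : 0 < η * N := by linarith
    have c1 : u.re * (η * N) ≤ 1 / 16 * (η * N) := mul_le_mul_of_nonneg_right b1.2 hXp.le
    have c2 : -(1 / 16) * (η * N) ≤ u.re * (η * N) := mul_le_mul_of_nonneg_right b1.1 hXp.le
    have c3 : u.im * (η * N) ≤ 13 / 16 * (η * N) :=
      mul_le_mul_of_nonneg_right (by linarith [b2.2]) hXp.le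
    have c4 : 11 / 16 * (η * N) ≤ u.im * (η * N) :=
      mul_le_mul_of_nonneg_right (by linarith [b2.1]) hXp.le
    show -a ≤ 4 * (z.1 - 0) ∧ 4 * (z.1 - 0) ≤ a ∧ 5 * a ≤ 4 * (z.2 - 0) ∧ 4 * (z.2 - 0) ≤ 7 * a
    refine ⟨?_, ?_, ?_, ?_⟩
    · have : (-a : ℝ) ≤ 4 * (z.1 - 0) := by linarith
      exact_mod_cast this
    · have : (4 : ℝ) * (z.1 - 0) ≤ a := by linarith
      exact_mod_cast this
    · have : (5 : ℝ) * a ≤ 4 * (z.2 - 0) := by linarith
      exact_mod_cast this
    · have : (4 : ℝ) * (z.2 - 0) ≤ 7 * a := by linarith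
      exact_mod_cast this
  · rw [lb_sum h.smooth.continuous h.cpt 0 hη hN0, h.mass]

/-- **The bump at `c`.** -/
theorem bq_lb {χ : ℂ → ℝ} (h : Shp Complex.I χ) {μ : ℝ} (hμ : 0 < μ) : ∃ K : ℝ, 1 ≤ K ∧
    ∀ η : ℝ, 0 < η → ∀ᶠ N : ℕ in atTop, ∀ c : ℤ,
      QB.Bq' μ K (c * N, 0) (⌈η * N⌉ + 1) (fun s => μ * lb χ c η N s) := by
  have hcpt := h.compact
  have hcont := h.smooth.continuous
  obtain ⟨C, hC⟩ := hcpt.exists_bound_of_continuous hcont
  have hC0 : 0 ≤ C := (norm_nonneg _).trans (hC 0)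
  -- the height of the support
  obtain ⟨k, hk, hk1⟩ : ∃ k : ℝ, 0 < k ∧ ∀ u, χ u ≠ 0 → k ≤ u.im ∧ ‖u‖ ≤ 1 := by
    have hne : (tsupport χ).Nonempty := by
      by_contra hcon
      rw [Set.not_nonempty_iff_eq_empty, tsupport_eq_empty_iff] at hcon
      have := h.mass
      rw [hcon] at this
      simp at this
    obtain ⟨u0, hu0, hmin⟩ := hcpt.isCompact.exists_isMinOn hne Complex.continuous_im.continuousOn
    have e : ∀ u : ℂ, (u * conj Complex.I).re = u.im := fun u => by rw [Complex.conj_I]; simp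
    refine ⟨u0.im, ?_, fun u hu => ⟨hmin (subset_tsupport χ hu), ?_⟩⟩
    · have := (h.supp hu0).2
      simp only [Set.mem_ofPred_eq] at this
      rwa [e] at this
    · have := (h.supp (subset_tsupport χ hu)).1
      rwa [mem_closedBall_zero_iff] at this
  refine ⟨max 1 (max (4 * (μ * C)) (4 / k)), le_max_left _ _, fun η hη => ?_⟩
  set K : ℝ := max 1 (max (4 * (μ * C)) (4 / k)) with hKd
  have hK1 : 1 ≤ K := le_max_left _ _
  have hK2 : 4 * (μ * C) ≤ K := (le_max_left _ _).trans (le_max_right _ _)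
  have hK3 : 4 / k ≤ K := (le_max_right _ _).trans (le_max_right _ _)
  have h1 : ∀ᶠ N : ℕ in atTop, (2 + 8 * K) / η ≤ (N : ℝ) :=
    tendsto_natCast_atTop_atTop.eventually_ge_atTop _
  filter_upwards [h1, eventually_gt_atTop 0] with N hN hN0 c
  have hX : 2 + 8 * K ≤ η * N := by
    rw [div_le_iff₀ hη] at hN
    linarith
  have hXp : 0 < η * N := by linarith
  have a1 := Int.le_ceil (η * N)
  have a2 := Int.ceil_lt_add_one (η * N)
  obtain ⟨r, hr⟩ : ∃ r : ℤ, r = ⌈η * N⌉ + 1 := ⟨_, rfl⟩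
  rw [← hr]
  have r1 : η * N + 1 ≤ r := by rw [hr]; push_cast; linarith
  have r2 : (r : ℝ) ≤ 2 * (η * N) := by rw [hr]; push_cast; linarith
  have hr0 : (0 : ℝ) < r := by linarith
  have hsc : H562.MAJ.Sc K r := ⟨hK1, by linarith⟩
  refine ⟨fun z => mul_nonneg hμ.le (lb_nonneg h.nonneg _ _ _ _), fun z => ?_, fun z hz => ?_, ?_⟩
  · have h2 : μ * lb χ c η N z ≤ μ * (C / (η * N) ^ 2) :=
      mul_le_mul_of_nonneg_left ((le_abs_self _).trans (lb_le (C := C) (fun u => by
        rw [← Real.norm_eq_abs]; exact hC u) c hη hN0 z)) hμ.le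
    refine h2.trans ?_
    have h3 : (r : ℝ) ^ 2 ≤ 4 * (η * N) ^ 2 := by nlinarith
    rw [mul_div_assoc', div_le_div_iff₀ (by positivity) (by positivity)]
    have h4 : 0 ≤ μ * C := by positivity
    nlinarith [mul_le_mul_of_nonneg_left h3 h4, mul_le_mul_of_nonneg_right hK2 (sq_nonneg (η * N))]
  · have hz' : lb χ c η N z ≠ 0 := fun h0 => hz (by simp only [h0, mul_zero])
    obtain ⟨u, hu, g1, g2, g3, g4⟩ := lb_supp hη hN0 hz'
    obtain ⟨b1, b2⟩ := hk1 u hu
    have b3 := (Complex.abs_re_le_norm u).trans b2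
    have b4 := (Complex.abs_im_le_norm u).trans b2
    rw [abs_le] at b3 b4
    have c1 : u.re * (η * N) ≤ 1 * (η * N) := mul_le_mul_of_nonneg_right b3.2 hXp.le
    have c2 : -1 * (η * N) ≤ u.re * (η * N) := mul_le_mul_of_nonneg_right b3.1 hXp.le
    have c3 : u.im * (η * N) ≤ 1 * (η * N) := mul_le_mul_of_nonneg_right b4.2 hXp.le
    have c4 : k * (η * N) ≤ u.im * (η * N) := mul_le_mul_of_nonneg_right b1 hXp.le
    refine hsc.supp ?_ ?_ ?_ ?_
    · have : ((c * N - r : ℤ) : ℝ) ≤ z.1 := by push_cast; linarith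
      exact_mod_cast this
    · have : ((z.1 : ℤ) : ℝ) ≤ ((c * N + r : ℤ) : ℝ) := by push_cast; linarith
      exact_mod_cast this
    · have e1 : (r : ℝ) / K ≤ k * (η * N) := by
        rw [div_le_iff₀ (by linarith)]
        have e2 : 4 ≤ k * K := by
          rw [div_le_iff₀ hk] at hK3
          linarith
        nlinarith
      simp only [Int.cast_zero, zero_add]
      linarith
    · have : ((z.2 : ℤ) : ℝ) ≤ ((0 + r : ℤ) : ℝ) := by push_cast; linarith
      exact_mod_cast this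
  · have e1 := smul_finsum μ (lb χ c η N)
    simp only [smul_eq_mul] at e1
    rw [← e1, lb_sum hcont hcpt c hη hN0, h.mass, mul_one]

end Vale.Agent.P167.BQ460
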