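import Vale.Agent.P167.H469.BArm

/-!
# P167, general `q`, assembly of `BrQ`: macroscopic dual paths along a flat side

`mac`: with probability at least `c` (depending on the ratio of the lengths only) there is a dual path of
the domain from the half box of radius `r` of the origin to the line at the right of the point `(L, 0)`.
Only the half plane strip along the line is used; anything else is arbitrary.
-/

set_option autoImplicit false

namespace Vale.Agent.P167.BQ460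

open Finset Relation Vale.Agent.P167.FK
open Vale.Agent.P145.FB (PStep)
open Vale.Agent.P167.H632 (IncC cs pr nm_le le_nm cs_compl)
open Vale.Agent.P167.H704.Q (prC_inter)
open Vale.Agent.P167.H192.TA (Xc Pw dq sr cut_dq arc_full)
open Vale.Agent.P167.H192.Q (SRSW)
open Vale.Agent.P167.FKA (Pr_nonneg Pr_mono)
open Vale.Agent.P167.H469 (Ks Cn exists_Ks inc_Xc inc_nXc join_half)

variable {Q : ℝ} {D : Finset (ℤ × ℤ)} {η ω : Cfg}

/-- One step of the chain: a dual crossing and a dual half circuit around `(i s, 0)`. -/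
def Ch (s A B A' : ℤ) (i : ℕ) : Set Cfg :=
  Xc false ((i : ℤ) * s, 0) s B ∩ (Xc true ((i : ℤ) * s, 0) A A')ᶜ

/-- The feet of a dual half circuit. -/
def Feet (ω : Cfg) (s A A' : ℤ) (i : ℕ) (x x' : ℤ) : Prop :=
  (i : ℤ) * s - A' ≤ x ∧ x ≤ (i : ℤ) * s - A ∧ (i : ℤ) * s + A ≤ x' ∧ x' ≤ (i : ℤ) * s + A' ∧
    x % 2 = 1 ∧ Pw (cs false ω ∩ dq ((i : ℤ) * s, 0) A A') (x, 0) (x', 0)

theorem feet_of {s A B A' : ℤ} (hA1 : 1 ≤ A) (hAA : A ≤ A') {i : ℕ} (h : ω ∈ Ch s A B A' i) :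
    ∃ x x', Feet ω s A A' i x x' := by
  obtain ⟨-, h2⟩ := h
  obtain ⟨x, x', x1, x2, x3, x4, x5, x6⟩ := arc_full (F := cs true ω) (b := ((i : ℤ) * s, 0)) (r := A)
    (R := A') (e := 0) (Or.inl rfl) hA1 hAA (fun y y' hy hye hyr hyy' => by
      by_contra hcon
      push Not at hcon
      exact h2 ⟨y, y', hy, by simpa [pr] using hye, hyr, hyy', hcon⟩)
  refine ⟨x, x', x1, x2, x3, x4, by simpa using x5, ?_⟩
  rw [cs_compl] at x6
  exact x6

/-- A crossing around `(i s, 0)` is joined to the half circuit around `(j s, 0)`, `|i - j| ≤ 1`. -/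
theorem cross_foot {s A B A' : ℤ} (hs : 1 ≤ s) (hA : 2 * s ≤ A) (hAA : A ≤ A') (hB : A' + s ≤ B)
    {i j : ℕ} (hij : |((i : ℤ) - j) * s| ≤ s) {y y' : ℤ × ℤ} (hy : y ∈ sr ((i : ℤ) * s, 0) s B)
    (hp : (y.1 + y.2) % 2 = 1) (hy1 : nm (y - ((i : ℤ) * s, 0)) ≤ s)
    (hyy : Pw (cs false ω ∩ dq ((i : ℤ) * s, 0) s B) y y')
    (hy2 : B ≤ nm (y' - ((i : ℤ) * s, 0))) {x x' : ℤ} (hf : Feet ω s A A' j x x')
    {U : Set (ℤ × ℤ)} (hU1 : dq ((i : ℤ) * s, 0) s B ⊆ U) (hU2 : dq ((j : ℤ) * s, 0) A A' ⊆ U) :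
    Pw (cs false ω ∩ U) y (x, 0) := by
  rw [abs_le] at hij
  have e0 : ((i : ℤ) - j) * s = (i : ℤ) * s - (j : ℤ) * s := by ring
  rw [e0] at hij
  rw [nm_le] at hy1
  rw [le_nm] at hy2
  simp only [Prod.fst_sub, Prod.snd_sub] at hy1 hy2
  obtain ⟨y0, y1, k1, k2, k3, k4, k5⟩ := cut_dq (G := cs false ω ∩ dq ((i : ℤ) * s, 0) s B)
    (b := ((j : ℤ) * s, 0)) (r := A) (R := A') hAA (y := y) (y' := y')
    (by simp only [sr, Set.mem_ofPred_eq] at hy; exact hy.2.2.1)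
    (fun v hv => by have := hv.2; simp only [dq, Set.mem_ofPred_eq] at this; exact this.2.2.1) hyy
    (by rw [nm_le]; simp only [Prod.fst_sub, Prod.snd_sub]; omega)
    (by rw [le_nm]; simp only [Prod.fst_sub, Prod.snd_sub]; omega)
  obtain ⟨f1, f2, f3, f4, f5, f6⟩ := hf
  have hpar : (y0.1 + y0.2) % 2 = 1 := by rw [← k1.parity]; exact hp
  have h1 := join_half (F := cs false ω) (b := ((j : ℤ) * s, 0)) (r := A) (R := A') (e := 1)
    (Or.inr rfl) (by omega) hAA (y := y0) (y' := y1) (p := (x, 0)) (q := (x', 0)) k2 k3 k5 hpar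
    (Pw.mono (G := cs false ω ∩ dq ((j : ℤ) * s, 0) A A') (fun v hv => ⟨hv.1.1, hv.2⟩) k4)
    (by simp only [sr, Set.mem_ofPred_eq]; omega) f2 rfl (by simpa using f5) f3 rfl f6
  exact (Pw.mono (G := cs false ω ∩ U) (fun v hv => ⟨hv.1, hU1 hv.2⟩) k1).trans
    (Pw.mono (G := cs false ω ∩ U) (fun v hv => ⟨hv.1, hU2 hv.2⟩) h1)

/-- **The chain.** -/
theorem ch_join {s A B A' : ℤ} (hs : 1 ≤ s) (hA : 2 * s ≤ A) (hAA : A ≤ A') (hB : A' + s ≤ B)
    {J : ℕ} (h : ∀ i ≤ J, ω ∈ Ch s A B A' i) {U : Set (ℤ × ℤ)}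
    (hU : ∀ v : ℤ × ℤ, -B ≤ v.1 → v.1 < (J : ℤ) * s + B → 0 ≤ v.2 → v.2 < B → v ∈ U) :
    ∃ y z : ℤ × ℤ, -s ≤ y.1 ∧ y.1 ≤ s ∧ 0 ≤ y.2 ∧ y.2 ≤ s ∧ (y.1 + y.2) % 2 = 1 ∧ z.2 = 0 ∧
      (J : ℤ) * s + A ≤ z.1 ∧ z.1 ≤ (J : ℤ) * s + A' ∧ Pw (cs false ω ∩ U) y z := by
  have hJ : ∀ i : ℕ, i ≤ J → (0 : ℤ) ≤ (i : ℤ) * s ∧ (i : ℤ) * s ≤ (J : ℤ) * s := fun i hi => by
    refine ⟨by positivity, mul_le_mul_of_nonneg_right (by exact_mod_cast hi) (by omega)⟩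
  have hU1 : ∀ i ≤ J, dq ((i : ℤ) * s, 0) s B ⊆ U := fun i hi v hv => by
    simp only [dq, Set.mem_ofPred_eq] at hv
    have := hJ i hi
    exact hU v (by omega) (by omega) (by omega) (by omega)
  have hU2 : ∀ i ≤ J, dq ((i : ℤ) * s, 0) A A' ⊆ U := fun i hi v hv => by
    simp only [dq, Set.mem_ofPred_eq] at hv
    have := hJ i hi
    exact hU v (by omega) (by omega) (by omega) (by omega)
  obtain ⟨⟨y, y', g1, g2, g3, g4, g5⟩, -⟩ := h 0 (Nat.zero_le _)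
  have key : ∀ j ≤ J, ∀ x x', Feet ω s A A' j x x' → Pw (cs false ω ∩ U) y (x, 0) := by
    intro j
    induction j with
    | zero =>
      intro hj x x' hf
      exact cross_foot hs hA hAA hB (i := 0) (j := 0) (by simp; omega) g1 (by simpa [pr] using g2)
        g3 g4 g5 hf (hU1 0 hj) (hU2 0 hj)
    | succ j ih =>
      intro hj x x' hf
      obtain ⟨a, a', ha⟩ := feet_of (by omega) hAA (h j (by omega))
      have h1 := ih (by omega) a a' ha
      obtain ⟨⟨w, w', p1, p2, p3, p4, p5⟩, -⟩ := h j (by omega)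
      have h2 := cross_foot hs hA hAA hB (i := j) (j := j) (by simp; omega) p1
        (by simpa [pr] using p2) p3 p4 p5 ha (hU1 j (by omega)) (hU2 j (by omega))
      have h3 := cross_foot hs hA hAA hB (i := j) (j := j + 1)
        (by push_cast; rw [show ((j : ℤ) - (j + 1)) * s = -s by ring, abs_neg, abs_of_pos (by omega)])
        p1 (by simpa [pr] using p2) p3 p4 p5 hf (hU1 j (by omega)) (hU2 (j + 1) hj)
      exact h1.trans ((h2.symm).trans h3)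
  obtain ⟨x, x', hf⟩ := feet_of (by omega) hAA (h J le_rfl)
  have h1 := key J le_rfl x x' hf
  obtain ⟨f1, f2, f3, f4, f5, f6⟩ := hf
  rw [nm_le] at g3
  simp only [Prod.fst_sub, Prod.snd_sub, Nat.cast_zero, zero_mul] at g3
  simp only [sr, Set.mem_ofPred_eq, Nat.cast_zero, zero_mul] at g1
  refine ⟨y, (x', 0), by omega, by omega, by omega, by omega, by simpa [pr] using g2, rfl, f3, f4,
    h1.trans (Pw.mono (G := cs false ω ∩ U) (fun v hv => ⟨hv.1, hU2 J le_rfl hv.2⟩) f6)⟩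

theorem inc_ch (s A B A' : ℤ) (i : ℕ) : IncC false (Ch s A B A' i) :=
  (inc_Xc false _ _ _).inter (inc_nXc false _ _ _)

theorem inc_all (s A B A' : ℤ) (J : ℕ) : IncC false {ω | ∀ i ≤ J, ω ∈ Ch s A B A' i} :=
  fun o o' h ho i hi => inc_ch s A B A' i o o' h (ho i hi)

theorem pr_all (hQ : 1 ≤ Q) (hη : Good η) {s A B A' : ℤ} {c : ℝ} (hc : 0 ≤ c) {J : ℕ}
    (h : ∀ i ≤ J, c ≤ Pr Q D η (Ch s A B A' i)) :
    c ^ (J + 1) ≤ Pr Q D η {ω | ∀ i ≤ J, ω ∈ Ch s A B A' i} := by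
  induction J with
  | zero =>
    have e : {ω | ∀ i ≤ 0, ω ∈ Ch s A B A' i} = Ch s A B A' 0 := by
      ext ω
      constructor
      · intro h; exact h 0 le_rfl
      · intro h i hi
        have : i = 0 := by omega
        rw [this]; exact h
    rw [e, zero_add, pow_one]
    exact h 0 le_rfl
  | succ J ih =>
    have e : {ω | ∀ i ≤ J + 1, ω ∈ Ch s A B A' i} =
        {ω | ∀ i ≤ J, ω ∈ Ch s A B A' i} ∩ Ch s A B A' (J + 1) := by
      ext ω
      constructor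
      · intro h; exact ⟨fun i hi => h i (by omega), h _ le_rfl⟩
      · rintro ⟨h1, h2⟩ i hi
        rcases Nat.lt_or_ge i (J + 1) with h3 | h3
        · exact h1 i (by omega)
        · have : i = J + 1 := by omega
          rw [this]; exact h2
    rw [e, pow_succ]
    refine le_trans ?_ (prC_inter hQ hη (inc_all s A B A' J) (inc_ch s A B A' (J + 1)))
    exact mul_le_mul (ih fun i hi => h i (by omega)) (h _ le_rfl) hc (Pr_nonneg (by linarith) _)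

/-- **Macroscopic dual paths along a flat side.** -/
theorem mac (hQ : 1 ≤ Q) (hR : RSW Q) (hS : SRSW Q) (κ : ℕ) : ∃ (c : ℝ) (s0 : ℤ), 0 < c ∧
    1 ≤ s0 ∧ ∀ (D : Finset (ℤ × ℤ)) (η : Cfg) (L M r : ℤ), s0 ≤ r → r ≤ M → 0 ≤ L → L ≤ κ * r →
      Good η → (∀ v : ℤ × ℤ, -M ≤ v.1 → v.1 < L + M → 0 ≤ v.2 → v.2 < M → v ∈ D) →
      c ≤ Pr Q D η {ω | ∃ y z : ℤ × ℤ, -r ≤ y.1 ∧ y.1 ≤ r ∧ 0 ≤ y.2 ∧ y.2 ≤ r ∧
        (y.1 + y.2) % 2 = 1 ∧ z.2 = 0 ∧ L ≤ z.1 ∧ z.1 ≤ L + M ∧ Pw (cs false ω ∩ ↑D) y z} := by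
  have hQ0 : 0 < Q := by linarith
  obtain ⟨C⟩ := exists_Ks hQ hR hS
  have hΛ := C.hΛ
  have hc0 := C.hc0
  obtain ⟨c, s0, hc, hc1, hs0, hcr⟩ := C.cross (3 * C.Λ).toNat
  have hMn : (((3 * C.Λ).toNat : ℕ) : ℤ) = 3 * C.Λ := Int.toNat_of_nonneg (by omega)
  rw [hMn] at hcr
  have hc01 : C.c0 ≤ 1 := by
    have h1 := C.half true 0 1 le_rfl
    have h2 : 0 ≤ H192.Q.pX Q true 0 1 (C.Λ * 1) := Pr_nonneg hQ0 _
    linarith
  have hcc : 0 < c * C.c0 := by positivity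
  have hcc1 : c * C.c0 ≤ 1 := by nlinarith
  refine ⟨(c * C.c0) ^ ((12 * C.Λ).toNat * κ + 1), 6 * C.Λ * (s0 + 1), by positivity, by nlinarith,
    fun D η L M r hr hrM hL0 hL hη hD => ?_⟩
  have h6 : (0 : ℤ) < 6 * C.Λ := by omega
  obtain ⟨s, hs⟩ : ∃ s, s = r / (6 * C.Λ) := ⟨_, rfl⟩
  have s1 : s0 + 1 ≤ s := by
    rw [hs, Int.le_ediv_iff_mul_le h6]
    linarith
  have s2 : 6 * C.Λ * s ≤ r := by
    rw [hs, mul_comm]
    exact Int.ediv_mul_le _ h6.ne'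
  have s3 : r < 6 * C.Λ * (s + 1) := by
    rw [hs, mul_comm]
    exact Int.lt_ediv_add_one_mul_self _ h6
  have s4 : s ≤ C.Λ * s := by nlinarith
  have s5 : 2 * s ≤ C.Λ * s := by nlinarith
  have hJ0 : 0 ≤ L / s := Int.ediv_nonneg hL0 (by omega)
  obtain ⟨J, hJ⟩ := Int.eq_ofNat_of_zero_le hJ0
  have j1 : (J : ℤ) * s ≤ L := by
    have h := Int.ediv_mul_le L (show s ≠ 0 by omega)
    rw [hJ] at h
    exact h
  have j2 : L < (J : ℤ) * s + s := by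
    have h := Int.lt_ediv_add_one_mul_self L (show 0 < s by omega)
    rw [hJ] at h
    linarith [show ((Int.ofNat J : ℤ) + 1) * s = (J : ℤ) * s + s by simp; ring]
  have j3 : J ≤ (12 * C.Λ).toNat * κ := by
    have h1 : (J : ℤ) * s ≤ (12 * C.Λ) * κ * s := by
      refine j1.trans (hL.trans ?_)
      have : r ≤ 12 * C.Λ * s := by nlinarith
      calc (κ : ℤ) * r ≤ κ * (12 * C.Λ * s) := mul_le_mul_of_nonneg_left this (by positivity)
        _ = _ := by ring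
    have h2 : (J : ℤ) ≤ 12 * C.Λ * κ := le_of_mul_le_mul_right h1 (by omega)
    have h3 : (((12 * C.Λ).toNat : ℕ) : ℤ) = 12 * C.Λ := Int.toNat_of_nonneg (by omega)
    have h4 : (J : ℤ) ≤ (((12 * C.Λ).toNat * κ : ℕ) : ℤ) := by rw [Nat.cast_mul, h3]; exact h2
    exact_mod_cast h4
  set B : ℤ := 2 * (C.Λ * s) + s with hB
  have hB2 : 2 * B ≤ r := by
    have e : 6 * C.Λ * s = 6 * (C.Λ * s) := by ring
    omega
  have hcn : ∀ i : ℕ, i ≤ J → Cn D ((i : ℤ) * s, 0) (2 * B) := by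
    intro i hi v h1 h2 h3 h4
    have h5 : (0 : ℤ) ≤ (i : ℤ) * s := mul_nonneg (Int.natCast_nonneg i) (by omega)
    have h7 : (i : ℤ) * s ≤ (J : ℤ) * s := mul_le_mul_of_nonneg_right (by exact_mod_cast hi) (by omega)
    simp only at h1 h2 h3 h4
    exact hD v (by omega) (by omega) (by omega) (by omega)
  have hch : ∀ i ≤ J, c * C.c0 ≤ Pr Q D η (Ch s (2 * s) B (C.Λ * (2 * s)) i) := by
    intro i hi
    have k1 := hcr false ((i : ℤ) * s, 0) s B D η (by omega) (by omega)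
      (by rw [hB]; nlinarith) hη (hcn i hi)
    have k2 := C.half_ge (e := false) (b := ((i : ℤ) * s, 0)) (D := D) (m := 2 * s)
      (m' := C.Λ * (2 * s)) (by omega) le_rfl hη ((hcn i hi).mono (by rw [hB]; nlinarith))
    rw [Bool.not_false] at k2
    refine le_trans ?_ (prC_inter hQ hη (inc_Xc false _ _ _) (inc_nXc false _ _ _))
    exact mul_le_mul k1 k2 hc0.le (Pr_nonneg hQ0 _)
  have h1 := pr_all hQ hη hcc.le hch
  have h2 : (c * C.c0) ^ ((12 * C.Λ).toNat * κ + 1) ≤ (c * C.c0) ^ (J + 1) :=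
    pow_le_pow_of_le_one hcc.le hcc1 (by omega)
  refine h2.trans (h1.trans (Pr_mono hQ0 ?_))
  intro ω hω
  have e7 : C.Λ * (2 * s) = 2 * (C.Λ * s) := by ring
  obtain ⟨y, z, y1, y2, y3, y4, y5, z1, z2, z3, hw⟩ := ch_join (U := ↑D) (by omega) le_rfl
    (by rw [e7]; omega) (by rw [e7]) hω (fun v v1 v2 v3 v4 => by
      exact_mod_cast hD v (by omega) (by omega) v3 (by omega))
  exact ⟨y, z, by omega, by omega, y3, by omega, y5, z1, by omega, by rw [e7] at z3; omega, hw⟩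

end Vale.Agent.P167.BQ460
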