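import Vale.Agent.P167.H460.BQ.Geo
import Vale.Agent.P167.H460.BQ.Mac
import Vale.Agent.P167.QB.FDefs

/-!
# P167, general `q`, assembly of `BrQ`: the data `Geo2` of a shape, the dual arms

`geo2`: the polygon of the family with its two flat windows. `dar_ge`: lower bounds of the probabilities of
the dual arms `DAr`, uniform in the shape.
-/

set_option autoImplicit false

namespace Vale.Agent.P167.BQ460

open Finset Relation
open Vale.Agent.P145.FB (PStep)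
open Vale.Agent.P167.BR (sites hbox Jn mem_hbox mem_sites mem_sites_hbox)
open Vale.Agent.P167.H718 (etaW Dob)
open Vale.Agent.P167.E6 (IsPolygon Encloses dir face)
open Vale.Agent.P167.QT
open Vale.Agent.P167.FK (Good Ex Pr RSW)
open Vale.Agent.P167.FKA (Loc)
open Vale.Agent.P167.QB (Wa DAr Geo2)
open Vale.Agent.P167.H562.QM (FltQ)
open Vale.Agent.P167.H632 (cs)
open Vale.Agent.P167.H192.TA (Pw)
open Vale.Agent.P167.H192.Q (SRSW)

variable {P : Sh4} {ρ N : ℕ}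

/-- The configuration outside. -/
noncomputable def eN (h : P.Ok ρ) (N : ℕ) : Cfg :=
  etaW ((Sh4.dat h).D N) (H825.Q.qS (Sh4.dat h) N) (ka P N)

theorem dob_eN (h : P.Ok ρ) (hN : 2 ≤ N) :
    Dob (eN h N) ((Sh4.dat h).D N) (H825.Q.qS (Sh4.dat h) N) (ka P N) :=
  H825.Q.dob_qN (Sh4.dat h).poly (Sh4.dat h).enc hN _ _

/-- **The two flat windows.** -/
theorem geo2 (h : P.Ok 2) (hN : 4 ∣ N) (hN4 : 4 ≤ N) :
    Geo2 (H825.Q.qS (Sh4.dat h) N) ((Sh4.dat h).D N) (eN h N) (ka P N) (lc P N) (md P N)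
      ((N / 2 : ℕ) : ℤ) ((N / 2 : ℕ) : ℤ) := by
  have hN0 : 0 < N := by omega
  have g1 := h.k_lt
  have g2 := h.j_lt
  have g3 := h.l_lt
  have h1 := md_lt_lc (N := N) h (by norm_num) hN0
  have h2 := lc_lt_ka (N := N) h hN0
  obtain ⟨M, hM⟩ := hN
  have hN2 : ((N / 2 : ℕ) : ℤ) = 2 * M := by
    have : N / 2 = 2 * M := by omega
    rw [this]; push_cast; rfl
  have hNz : (N : ℤ) = 4 * M := by rw [hM]; push_cast; ring
  have hM0 : (1 : ℤ) ≤ M := by omega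
  have hlj : (2 : ℤ) ≤ (P.l : ℤ) - P.j := by omega
  have hml : (3 : ℤ) ≤ (P.m : ℤ) + 1 - P.l := by omega
  have hLN : 2 * (N : ℤ) ≤ ((P.l : ℤ) - P.j) * N := mul_le_mul_of_nonneg_right hlj (by positivity)
  have hMN : 3 * (N : ℤ) ≤ ((P.m : ℤ) + 1 - P.l) * N := mul_le_mul_of_nonneg_right hml (by positivity)
  have hLN2 : ((P.l : ℤ) - P.j + (2 : ℕ)) * N = ((P.l : ℤ) - P.j) * N + 2 * N := by push_cast; ring
  have q1 := q_md h hN0
  have q2 := q_lc h hN0
  have q3 := q_zero h hN0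
  constructor
  · exact Enl.isPolygon_qN hN0 (Sh4.dat h).poly _
  · exact Enl.encloses_qN hN0 (Sh4.dat h).poly (Sh4.dat h).enc _
  · exact (dob_eN h (by omega)).good
  · have : md P N + N / 2 ≤ lc P N := by omega
    exact_mod_cast this
  · have : lc P N + N / 2 ≤ ka P N := by omega
    exact_mod_cast this
  · exact ka_le h
  · omega
  · omega
  · rw [q2]
    refine fltQ_seg h hN0 rfl ?_ ?_ ?_
    · simp only [cP]; push_cast; omega
    · simp only [cP]; rw [hLN2]; omega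
    · push_cast; omega
  · rw [q1]
    refine fltQ_seg h hN0 rfl ?_ ?_ ?_
    · push_cast; omega
    · rw [hLN2]; simp only; omega
    · push_cast; omega
  · rw [q2, q3, mem_sites_hbox (by omega)]
    simp only [cP]
    omega
  · rw [q1, q3, mem_sites_hbox (by omega)]
    simp only
    omega
  · rw [q1, q2, Finset.disjoint_left]
    intro v hv hv'
    rw [mem_hbox] at hv hv'
    simp only [cP] at hv hv'
    omega

/-- The last exit from the half box. -/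
theorem last_exit {F : Set (ℤ × ℤ)} {b : ℤ × ℤ} {r : ℤ} (hr : 1 ≤ r) {y z : ℤ × ℤ}
    (hy : y ∈ sites (hbox b r)) (h : Pw F y z) :
    ∃ u ∈ sites (hbox b r), Pw (F \ ↑(hbox b r)) u z := by
  induction h with
  | refl => exact ⟨y, hy, ReflTransGen.refl⟩
  | @tail z' z _ hzz ih =>
    obtain ⟨u, hu, hw⟩ := ih
    obtain ⟨p1, p2, p3⟩ := hzz
    by_cases hm : (min z'.1 z.1, min z'.2 z.2) ∈ hbox b r
    · refine ⟨z, ?_, ReflTransGen.refl⟩
      rw [mem_hbox] at hm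
      rw [mem_sites_hbox hr]
      simp only at hm
      omega
    · exact ⟨u, hu, hw.tail ⟨p1, p2, p3, by simpa using hm⟩⟩

/-- The sites of the line at the right of `c` are on the arc. -/
theorem mem_Wa (h : P.Ok ρ) (hN : 0 < N) {z : ℤ × ℤ} (h1 : z.2 = 0)
    (h2 : ((P.l : ℤ) - P.j) * N ≤ z.1) (h3 : z.1 ≤ ((P.l : ℤ) - P.j) * N + (ρ : ℤ) * N) :
    z ∈ Wa (H825.Q.qS (Sh4.dat h) N) (ka P N) (lc P N) := by
  have g1 := h.k_lt
  have g2 := h.j_lt
  have g3 := h.l_lt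
  obtain ⟨x, hx⟩ := Int.eq_ofNat_of_zero_le (sub_nonneg.2 h2)
  have hx2 : x ≤ ρ * N := by
    have : (x : ℤ) ≤ (ρ : ℤ) * N := by
      have : (Int.ofNat x : ℤ) = (x : ℤ) := rfl
      omega
    exact_mod_cast this
  have h4 := lc_add (N := N) h
  have h5 := lc_lt_ka (N := N) h hN
  refine ⟨lc P N + x, by omega, by omega, ?_⟩
  have h6 : (P.m + 1 + ρ - P.j) * N = (P.m + 1 - P.j) * N + ρ * N := by
    rw [← add_mul]; congr 1; omega
  rw [qS_line h hN (by omega)]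
  have h7 : ((lc P N : ℕ) : ℤ) + ((N / 2 : ℕ) : ℤ) = ((P.m + 1 - P.j : ℕ) : ℤ) * N := by
    exact_mod_cast h4
  have h8 : ((P.m + 1 - P.j : ℕ) : ℤ) = (P.m : ℤ) + 1 - P.j := by
    rw [Nat.cast_sub (by omega)]; push_cast; ring
  rw [h8] at h7
  ext
  · simp only
    rw [Nat.cast_add]
    have h9 : (x : ℤ) = z.1 - ((P.l : ℤ) - P.j) * N := hx.symm
    rw [h9]
    linear_combination h7
  · simp only; rw [h1]

/-- **Lower bounds of the dual arms.** -/
theorem dar_ge {Q : ℝ} (hQ : 1 ≤ Q) (hR : RSW Q) (hS : SRSW Q) (κ : ℕ) : ∃ (c : ℝ) (s0 : ℤ), 0 < c ∧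
    1 ≤ s0 ∧ ∀ (P : Sh4) (h : P.Ok 2) (N : ℕ) (r : ℤ), 4 ∣ N → 4 ≤ N → s0 ≤ r → r ≤ N →
      ((P.l : ℤ) - P.j) * N ≤ κ * r →
      c ≤ Pr Q ((Sh4.dat h).D N) (eN h N)
        (DAr ((Sh4.dat h).D N) (Wa (H825.Q.qS (Sh4.dat h) N) (ka P N) (lc P N))
          (H825.Q.qS (Sh4.dat h) N (md P N : ZMod _)) r) := by
  obtain ⟨c, s0, hc, hs0, hm⟩ := mac hQ hR hS κ
  refine ⟨c, s0, hc, hs0, fun P h N r hN hN4 hr hrN hL => ?_⟩
  have hN0 : 0 < N := by omega
  have g2 := h.j_lt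
  have hQ0 : 0 < Q := by linarith
  have hL0 : 0 ≤ ((P.l : ℤ) - P.j) * N := mul_nonneg (by omega) (by positivity)
  have hLN2 : ((P.l : ℤ) - P.j + (2 : ℕ)) * N = ((P.l : ℤ) - P.j) * N + 2 * N := by push_cast; ring
  refine (hm ((Sh4.dat h).D N) (eN h N) (((P.l : ℤ) - P.j) * N) N r hr hrN hL0 hL
    (dob_eN h (by omega)).good (fun v h1 h2 h3 h4 => ?_)).trans (FKA.Pr_mono hQ0 ?_)
  · rw [mem_D h hN0 (by push_cast; omega) (by rw [hLN2]; omega) (by push_cast; omega)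
      (by push_cast; omega)]
    exact h3
  · rintro ω ⟨y, z, y1, y2, y3, y4, y5, z1, z2, z3, hw⟩
    rw [q_md h hN0]
    have hr1 : 1 ≤ r := by omega
    obtain ⟨u, hu, hwu⟩ := last_exit (b := (0, 0)) hr1 (y := y) (by
      rw [mem_sites_hbox hr1]; simp only; omega) hw
    show Jn false ((Sh4.dat h).D N \ hbox (0, 0) r) ω (sites (hbox (0, 0) r)) _
    refine ⟨u, hu, z, mem_Wa h hN0 z1 z2 (by push_cast; omega), ?_, ?_⟩
    · rw [hwu.parity, ← hw.parity, y5]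
      rfl
    · refine Pw.mono (fun v hv => ?_) hwu
      refine ⟨hv.1.1, ?_⟩
      rw [mem_coe, mem_sdiff]
      exact ⟨hv.1.2, hv.2⟩

end Vale.Agent.P167.BQ460
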