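import Vale.Agent.P167.H460.BQ.Mir
import Vale.Agent.P167.H460.BQ.Bump
import Vale.Agent.P167.H460.BQ.Dar
import Vale.Agent.P167.H640.CZ.Step
import Vale.Agent.P167.QB.ZTr
import Vale.Agent.P167.H174.ND.Base2

/-!
# P167, general `q`, assembly of `BrQ`

`brQ_of`: `QB.S_brf` (the finite-volume form of the bridge) gives, for every `ε`, a shape `χ` (two scales)
with `QT.BrQ h0 h1 χ ε`.
-/

set_option autoImplicit false

namespace Vale.Agent.P167.BQ460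

open Finset Filter Topology
open Vale.Agent.P167.BR (sites hbox Jn mem_hbox mem_sites mem_sites_hbox)
open Vale.Agent.P167.H718 (etaW Dob)
open Vale.Agent.P167.E6 (IsPolygon Encloses dir face)
open Vale.Agent.P167.QT
open Vale.Agent.P167.CA (cms)
open Vale.Agent.P167.H411.B7 (Shp)
open Vale.Agent.P167.FK (Good Ex Pr RSW)
open Vale.Agent.P167.QB (Wa DAr Geo2 Xcd nH zS XG dlt S_brf gB HArm sgm)
open Vale.Agent.P167.H192.Q (SRSW)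
open Vale.Agent.P167.H640.CZ (Idx chi cof fzx idx_adm circ_sum circ_neg)
open Vale.Agent.P167.H436.ND (Ft Bp)

variable {μ : ℝ} {P : Sh4} {N : ℕ}

/-- The charge of the functional. -/
theorem Vcd_eq (h0 : 0 < μ) (h1 : μ ≤ Real.pi / 3) {χ : ℂ → ℝ} (hχ : Shp Complex.I χ)
    (h : P.Ok 2) {η η' : ℝ} (hη : 0 < η) (hη' : 0 < η') (hN : 0 < N) :
    Vcd h0 h1 χ h η η' N = Ex (2 * Real.cos μ) ((Sh4.dat h).D N) (eN h N)
      (XG μ (H825.Q.qS (Sh4.dat h) N) ((Sh4.dat h).D N) (ka P N)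
        (fun z => μ * lb χ 0 η' N z - μ * lb χ ((P.l : ℤ) - P.j) η N z)) := by
  unfold Vcd fam
  rw [H542.Q.BD.famB_V]
  have e1 : (H825.Q.bdQ (Sh4.dat h) μ (gB μ) P.bc (Sh4.bc_in h) F4 F4_le inferInstance).k N =
      ka P N := kS_dat h hN
  have e2 : (H825.Q.bdQ (Sh4.dat h) μ (gB μ) P.bc (Sh4.bc_in h) F4 F4_le inferInstance).η N =
      eN h N := by
    show etaW ((Sh4.dat h).D N) (H825.Q.qS (Sh4.dat h) N) (H825.Q.kS (Sh4.dat h) P.bc N) = _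
    rw [kS_dat h hN]
    rfl
  rw [e1, e2]
  have e3 : cms (fun w => -μ * H411.Q.fb χ Complex.I ((P.l - P.j : ℝ) : ℂ) η w +
      μ * H411.Q.fb χ Complex.I 0 η' w) (1 / N) =
      fun z => μ * lb χ 0 η' N z - μ * lb χ ((P.l : ℤ) - P.j) η N z := by
    funext z
    have i1 := fb_int hχ.smooth.continuous hχ.compact ((P.l - P.j : ℝ) : ℂ) hη
    have i2 := fb_int hχ.smooth.continuous hχ.compact (0 : ℂ) hη'
    rw [CA.cms_add (i1.const_mul _) (i2.const_mul _), CA.cms_smul, CA.cms_smul]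
    unfold lb
    have e4 : (((P.l : ℤ) - (P.j : ℤ) : ℤ) : ℂ) = ((P.l - P.j : ℝ) : ℂ) := by push_cast; rfl
    have e5 : ((0 : ℤ) : ℂ) = 0 := Int.cast_zero
    rw [e4, e5]
    ring
  rw [e3]
  rfl

/-- The bumps of the two rings. -/
noncomputable def f2 (χ : ℂ → ℝ) (K : ℤ) (η : ℝ) (N : ℕ) : Fin 2 → ℤ × ℤ → ℝ :=
  ![lb χ 0 (η / K) N, lb χ 0 η N]

/-- The radii of the two rings. -/
noncomputable def a2 (K : ℤ) (η : ℝ) (N : ℕ) : Fin 2 → ℤ := ![⌊η / K * N / 2⌋, ⌊η * N / 2⌋]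

theorem Ft_two {K : ℤ} (hK : 1 ≤ K) {χ : ℂ → ℝ} (h : Shp0 χ) {η : ℝ} (hη : 0 < η) (N : ℕ)
    (E : ℤ × ℤ → ℝ) (z : ℤ × ℤ) :
    Ft (fun _ => μ / 2) (f2 χ K η N) E z = μ * lb (two K χ) 0 η N z + E z := by
  unfold Ft f2
  rw [lb_two hK h hη]
  simp [Fin.sum_univ_two]
  ring

open Classical in
/-- The functional without the primal arm. -/
theorem Xcd_nH {n : ℕ} (q : ZMod n → ℤ × ℤ) (D : Finset (ℤ × ℤ)) (k l : ℕ) {K : ℤ} (hK : 1 ≤ K)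
    {χ : ℂ → ℝ} (h : Shp0 χ) {η : ℝ} (hη : 0 < η) (N : ℕ) (b : ℤ × ℤ) (r R : ℤ) (ω : Cfg) :
    Xcd μ q D k l (f2 χ K η N) ω * nH b r R ω = if HArm b r R ω then 0 else
      XG μ q D k (fun z => μ * lb (two K χ) 0 η N z - dlt (q l) μ z) ω := by
  have e : Ft (fun _ => μ / 2) (f2 χ K η N) (dlt (q l) (-μ)) =
      fun z => μ * lb (two K χ) 0 η N z - dlt (q l) μ z := by
    funext z
    rw [Ft_two hK h hη]
    unfold dlt
    by_cases hz : z = q l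
    · rw [if_pos hz, if_pos hz]; ring
    · rw [if_neg hz, if_neg hz]; ring
  unfold Xcd nH
  rw [e]
  by_cases hH : HArm b r R ω
  · rw [if_pos hH, Set.indicator_of_notMem (by simpa using hH), mul_zero]
  · rw [if_neg hH, Set.indicator_of_mem (by simpa using hH), Pi.one_apply, mul_one]

open Classical in
theorem Xcdn_nH {n : ℕ} (q : ZMod n → ℤ × ℤ) (D : Finset (ℤ × ℤ)) (k l : ℕ) {K : ℤ} (hK : 1 ≤ K)
    {χ : ℂ → ℝ} (h : Shp0 χ) {η : ℝ} (hη : 0 < η) (N : ℕ) (b : ℤ × ℤ) (r R : ℤ) (ω : Cfg) :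
    max (-(Xcd μ q D k l (f2 χ K η N) ω)) 0 * nH b r R ω = if HArm b r R ω then 0 else
      max (- XG μ q D k (fun z => μ * lb (two K χ) 0 η N z - dlt (q l) μ z) ω) 0 := by
  have e : Ft (fun _ => μ / 2) (f2 χ K η N) (dlt (q l) (-μ)) =
      fun z => μ * lb (two K χ) 0 η N z - dlt (q l) μ z := by
    funext z
    rw [Ft_two hK h hη]
    unfold dlt
    by_cases hz : z = q l
    · rw [if_pos hz, if_pos hz]; ring
    · rw [if_neg hz, if_neg hz]; ring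
  unfold Xcd nH
  rw [e]
  by_cases hH : HArm b r R ω
  · rw [if_pos hH, Set.indicator_of_notMem (by simpa using hH), mul_zero]
  · rw [if_neg hH, Set.indicator_of_mem (by simpa using hH), Pi.one_apply, mul_one]

/-- The mirror images of the pairs. -/
noncomputable def Zi (p : Finset (ℤ × ℤ) × Finset (ℤ × ℤ)) : Finset (ℤ × ℤ) := p.1.image msq

/-- The configurations of the pairs. -/
noncomputable def ζi (p : Finset (ℤ × ℤ) × Finset (ℤ × ℤ)) : Cfg := chi p.2 ∘ msq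

theorem hbox_msq {r : ℤ} {v : ℤ × ℤ} : msq v ∈ hbox (0, 0) r ↔ v ∈ hbox (0, 0) r := by
  rw [mem_hbox, mem_hbox]
  simp only [msq]
  omega

/-- The pairs are admissible. -/
theorem adm_idx {r1 R1 r R : ℤ} (h1 : 1 ≤ r1) (h2 : r1 ≤ R1) (hr : r ≤ r1) (hR : R1 ≤ R)
    {p : Finset (ℤ × ℤ) × Finset (ℤ × ℤ)} (hp : p ∈ Idx (0, 0) r1 R1) :
    Adm (0, 0) r R (Zi p) (ζi p) := by
  obtain ⟨k1, k2, k3⟩ := idx_adm h1 h2 hp
  refine ⟨fun v hv => ?_, fun v hv => ?_, fun v hv w hw hw2 hs => ?_⟩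
  · unfold Zi
    rw [mem_im_msq]
    refine k1 (hbox_msq.2 ?_)
    rw [mem_hbox] at hv ⊢
    omega
  · unfold Zi at hv
    rw [mem_im_msq] at hv
    have := hbox_msq.1 (k2 hv)
    rw [mem_hbox] at this ⊢
    omega
  · unfold Zi at hv hw
    rw [mem_im_msq] at hv hw
    show chi p.2 (msq v) = false
    obtain ⟨s, hs1, hs2, hs3⟩ := hs
    refine k3 (msq v) hv (msq w) hw hw2 ⟨mir s, ?_, ?_, (mir_even s).2 hs3⟩
    · rw [← mir_mir s] at hs1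
      have : ({msq v} : Finset (ℤ × ℤ)) = ({v} : Finset (ℤ × ℤ)).image msq := by simp
      rw [this, mem_sites_msq]
      exact hs1
    · rw [← mir_mir s] at hs2
      have : ({msq w} : Finset (ℤ × ℤ)) = ({w} : Finset (ℤ × ℤ)).image msq := by simp
      rw [this, mem_sites_msq]
      exact hs2

/-- The core of the rings. -/
theorem core_hbox {K : ℤ} {χ : ℂ → ℝ} {η : ℝ} {Cm : ℝ}
    (hb : ∀ i, Bp Cm (0, 0) (a2 K η N i) (f2 χ K η N i)) (ha0 : 0 ≤ a2 K η N 0)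
    (ha : a2 K η N 0 ≤ a2 K η N 1) (ha1 : 1 ≤ a2 K η N 1) {z : ℤ × ℤ}
    (hz : f2 χ K η N 0 z ≠ 0 ∨ f2 χ K η N 1 z ≠ 0) : z ∈ sites (hbox (0, 0) (2 * a2 K η N 1)) := by
  rw [mem_sites_hbox (by omega)]
  rcases hz with hz | hz
  · have h1 := (hb 0).supp z hz
    simp only [H436.ND.Kr, Set.mem_ofPred_eq] at h1
    simp only at h1 ⊢
    omega
  · have h1 := (hb 1).supp z hz
    simp only [H436.ND.Kr, Set.mem_ofPred_eq] at h1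
    simp only at h1 ⊢
    omega

/-- **The sums.** -/
theorem sums (h0 : 0 < μ) (h1 : μ ≤ Real.pi / 3) (h : P.Ok 2) (hN : 4 ∣ N) (hN4 : 4 ≤ N) {K : ℤ}
    (hK : 1 ≤ K) {χ : ℂ → ℝ} (hχ : Shp0 χ) {η : ℝ} (hη : 0 < η) {Cm : ℝ}
    (hb : ∀ i, Bp Cm (0, 0) (a2 K η N i) (f2 χ K η N i)) (ha0 : 0 ≤ a2 K η N 0)
    (ha : a2 K η N 0 ≤ a2 K η N 1) (ha1 : 1 ≤ a2 K η N 1) {R1 : ℤ} (hR1 : 4 * a2 K η N 1 < R1)
    (hR2 : R1 + 2 ≤ ((N / 2 : ℕ) : ℤ)) :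
    Ex (2 * Real.cos μ) ((Sh4.dat h).D N) (eN h N) (fun ω =>
        Xcd μ (H825.Q.qS (Sh4.dat h) N) ((Sh4.dat h).D N) (ka P N) (lc P N) (f2 χ K η N) ω *
          nH (0, 0) (4 * a2 K η N 1) R1 ω) =
      ∑ p ∈ Idx (0, 0) (4 * a2 K η N 1) R1,
        cof μ (0, 0) (2 * a2 K η N 1) (4 * a2 K η N 1) R1 (fun z => μ * lb (two K χ) 0 η N z) p *
          PZ μ N (0, 0) P (Zi p) (ζi p) ∧
    Ex (2 * Real.cos μ) ((Sh4.dat h).D N) (eN h N) (fun ω =>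
        max (-(Xcd μ (H825.Q.qS (Sh4.dat h) N) ((Sh4.dat h).D N) (ka P N) (lc P N)
          (f2 χ K η N) ω)) 0 * nH (0, 0) (4 * a2 K η N 1) R1 ω) =
      ∑ p ∈ Idx (0, 0) (4 * a2 K η N 1) R1,
        max (-cof μ (0, 0) (2 * a2 K η N 1) (4 * a2 K η N 1) R1
          (fun z => μ * lb (two K χ) 0 η N z) p) 0 * PZ μ N (0, 0) P (Zi p) (ζi p) := by
  have hN0 : 0 < N := by omega
  have hev : Even N := by obtain ⟨M, hM⟩ := hN; exact ⟨2 * M, by omega⟩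
  have hcos : 0 < 2 * Real.cos μ := H542.Q.BD.cos_pos h0 h1
  have G := geo2 h hN hN4
  have hχ' := two_shp hK hχ
  have q1 := q_md h hN0
  have q2 := q_lc h hN0
  have hsgm : sgm (H825.Q.qS (Sh4.dat h) N) (lc P N) - sgm (H825.Q.qS (Sh4.dat h) N) (md P N) = 0 := by
    rw [H174.ND.sgm_par G.poly, H174.ND.sgm_par G.poly, q1, q2]
    have e : ((cP P N).1 + (cP P N).2) % 2 = (((0, 0) : ℤ × ℤ).1 + ((0, 0) : ℤ × ℤ).2) % 2 := by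
      obtain ⟨M, hM⟩ := hev
      simp only [cP, hM]
      push_cast
      rw [show ((P.l : ℤ) - P.j) * (M + M) + 0 = 2 * (((P.l : ℤ) - P.j) * M) by ring]
      simp
    rw [e, sub_self]
  have hflt : BR.Flt ((Sh4.dat h).D N) (H825.Q.qS (Sh4.dat h) N (md P N : ZMod _))
      ((N / 2 : ℕ) : ℤ) := QB.flt_of G.fd
  have hmn : md P N < (Sh4.dat h).l * N := by
    have h3 := md_lt_lc (N := N) h (by norm_num) hN0
    have h4 := lc_lt_ka (N := N) h hN0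
    have h5 : ka P N ≤ (Sh4.dat h).l * N := ka_le h
    omega
  have hlk : lc P N < ka P N := by
    have h4 := lc_lt_ka (N := N) h hN0
    omega
  have hf : ∀ z, μ * lb (two K χ) 0 η N z ≠ 0 →
      z ∈ sites (hbox (H825.Q.qS (Sh4.dat h) N (md P N : ZMod _)) (2 * a2 K η N 1)) := by
    intro z hz
    rw [q1]
    refine core_hbox hb ha0 ha ha1 ?_
    by_contra hcon
    push Not at hcon
    apply hz
    rw [lb_two hK hχ hη]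
    have e1 : lb χ 0 (η / K) N z = 0 := hcon.1
    have e2 : lb χ 0 η N z = 0 := hcon.2
    rw [e1, e2]
    simp
  have hs : ∑ᶠ z, μ * lb (two K χ) 0 η N z = μ := by
    have e1 := smul_finsum μ (lb (two K χ) 0 η N)
    simp only [smul_eq_mul] at e1
    rw [← e1, lb_sum hχ'.smooth.continuous hχ'.compact 0 hη hN0, hχ'.mass, mul_one]
  have hPZ : ∀ p ∈ Idx (0, 0) (4 * a2 K η N 1) R1, PZ μ N (0, 0) P (Zi p) (ζi p) =
      Ex (2 * Real.cos μ) ((Sh4.dat h).D N) (eN h N) (fzx ((Sh4.dat h).D N) p.1 (chi p.2)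
        {z | ∃ j : ℕ, lc P N ≤ j ∧ j ≤ ka P N ∧ H825.Q.qS (Sh4.dat h) N j = z}) := by
    intro p hp
    obtain ⟨-, k2, -⟩ := idx_adm (by omega) (by omega) hp
    have hsub : p.1 ⊆ (Sh4.dat h).D N := by
      refine k2.trans (fun v hv => ?_)
      rw [mem_hbox] at hv
      rw [mem_D h hN0]
      · simp only at hv; omega
      all_goals
        have g2 := h.j_lt
        have hlj : (2 : ℤ) ≤ (P.l : ℤ) - P.j := by omega
        have hLN : 2 * (N : ℤ) ≤ ((P.l : ℤ) - P.j) * N :=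
          mul_le_mul_of_nonneg_right hlj (by positivity)
        have hLN2 : ((P.l : ℤ) - P.j + (2 : ℕ)) * N = ((P.l : ℤ) - P.j) * N + 2 * N := by
          push_cast; ring
        simp only at hv
        first
          | (push_cast; omega)
          | (rw [hLN2]; omega)
    exact PZ_mir hcos h (by omega) hev hsub (chi p.2)
  constructor
  · have e1 : (fun ω => Xcd μ (H825.Q.qS (Sh4.dat h) N) ((Sh4.dat h).D N) (ka P N) (lc P N)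
        (f2 χ K η N) ω * nH (0, 0) (4 * a2 K η N 1) R1 ω) = fun ω =>
        ∑ p ∈ Idx (0, 0) (4 * a2 K η N 1) R1,
          cof μ (0, 0) (2 * a2 K η N 1) (4 * a2 K η N 1) R1 (fun z => μ * lb (two K χ) 0 η N z) p *
            fzx ((Sh4.dat h).D N) p.1 (chi p.2)
              {z | ∃ j : ℕ, lc P N ≤ j ∧ j ≤ ka P N ∧ H825.Q.qS (Sh4.dat h) N j = z} ω := by
      funext ω
      rw [Xcd_nH _ _ _ _ hK hχ hη]
      have h5 := circ_sum h0 h1 G.poly G.enc hflt hmn G.od (by omega : 1 ≤ 2 * a2 K η N 1)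
        (by omega : 2 * a2 K η N 1 + 2 ≤ 4 * a2 K η N 1) hR1 hR2 G.mR hlk G.kn hf hs ω
      rw [hsgm, zpow_zero, one_mul, q1] at h5
      exact h5
    rw [e1, FKA.Ex_sum]
    refine sum_congr rfl fun p hp => ?_
    rw [FKA.Ex_mul_left, hPZ p hp]
  · have e1 : (fun ω => max (-(Xcd μ (H825.Q.qS (Sh4.dat h) N) ((Sh4.dat h).D N) (ka P N) (lc P N)
        (f2 χ K η N) ω)) 0 * nH (0, 0) (4 * a2 K η N 1) R1 ω) = fun ω =>
        ∑ p ∈ Idx (0, 0) (4 * a2 K η N 1) R1,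
          max (-cof μ (0, 0) (2 * a2 K η N 1) (4 * a2 K η N 1) R1
            (fun z => μ * lb (two K χ) 0 η N z) p) 0 *
            fzx ((Sh4.dat h).D N) p.1 (chi p.2)
              {z | ∃ j : ℕ, lc P N ≤ j ∧ j ≤ ka P N ∧ H825.Q.qS (Sh4.dat h) N j = z} ω := by
      funext ω
      rw [Xcdn_nH _ _ _ _ hK hχ hη]
      have h5 := circ_neg h0 h1 G.poly G.enc hflt hmn G.od (by omega : 1 ≤ 2 * a2 K η N 1)
        (by omega : 2 * a2 K η N 1 + 2 ≤ 4 * a2 K η N 1) hR1 hR2 G.mR hlk G.kn hf hs ω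
      rw [hsgm, zpow_zero, one_mul, q1] at h5
      exact h5
    rw [e1, FKA.Ex_sum]
    refine sum_congr rfl fun p hp => ?_
    rw [FKA.Ex_mul_left, hPZ p hp]

/-! ### the numbers -/

/-- The radii of the rings. -/
theorem num_a (a₀ : ℤ) {K : ℤ} (hK : 8 ≤ K) {η : ℝ} (h1 : 4 * |(a₀ : ℝ)| ≤ η / K * N)
    (h2 : 100 ≤ η / K * N) : a₀ ≤ a2 K η N 0 ∧ 48 ≤ a2 K η N 0 ∧ K * a2 K η N 0 ≤ a2 K η N 1 ∧
      a2 K η N 0 ≤ a2 K η N 1 ∧ a2 K η N 1 ≤ 2 * K * a2 K η N 0 ∧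
      η / K * N ≤ 2 * (4 * a2 K η N 0 : ℤ) ∧ ⌊η * N⌋ ≤ 4 * a2 K η N 1 ∧
      ((a2 K η N 1 : ℤ) : ℝ) ≤ η * N / 2 := by
  have hKr : (8 : ℝ) ≤ K := by exact_mod_cast hK
  obtain ⟨x, hx⟩ : ∃ x, x = a2 K η N 0 := ⟨_, rfl⟩
  obtain ⟨y, hy⟩ : ∃ y, y = a2 K η N 1 := ⟨_, rfl⟩
  have a0e : x = ⌊η / K * N / 2⌋ := hx
  have a1e : y = ⌊η * N / 2⌋ := hy
  rw [← hx, ← hy]
  have A0a : (x : ℝ) ≤ η / K * N / 2 := by rw [a0e]; exact Int.floor_le _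
  have A0b : η / K * N / 2 - 1 < x := by
    rw [a0e]; linarith [Int.lt_floor_add_one (η / K * (N : ℝ) / 2)]
  have A1a : (y : ℝ) ≤ η * N / 2 := by rw [a1e]; exact Int.floor_le _
  have A1b : η * N / 2 - 1 < y := by
    rw [a1e]; linarith [Int.lt_floor_add_one (η * (N : ℝ) / 2)]
  have hK0 : (K : ℝ) ≠ 0 := by linarith
  have hYK : η * N = K * (η / K * N) := by field_simp
  generalize η / K * (N : ℝ) = u at *
  rw [hYK] at A1a A1b a1e ⊢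
  have A0r : |(a₀ : ℝ)| ≤ x := by linarith [abs_nonneg (a₀ : ℝ)]
  have hA1 : K * x ≤ y := by
    rw [a1e, Int.le_floor]
    push_cast
    nlinarith
  have hx48 : 48 ≤ x := by
    have : (48 : ℝ) ≤ x := by linarith
    exact_mod_cast this
  refine ⟨?_, hx48, hA1, ?_, ?_, ?_, ?_, A1a⟩
  · have : (a₀ : ℝ) ≤ x := (le_abs_self _).trans A0r
    exact_mod_cast this
  · nlinarith
  · have : (y : ℝ) ≤ 2 * K * x := by
      have e1 : K * u / 2 ≤ K * (x + 1) := by nlinarith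
      nlinarith
    exact_mod_cast this
  · push_cast
    linarith
  · have : ((⌊(K : ℝ) * u⌋ : ℤ) : ℝ) ≤ ((4 * y : ℤ) : ℝ) := by
      push_cast
      have h3 := Int.floor_le ((K : ℝ) * u)
      have : (100 : ℝ) ≤ K * u := by nlinarith
      linarith
    exact_mod_cast this

/-- The radius at `d`. -/
theorem num_R {K : ℤ} (hK : 8 ≤ K) {ρ t t' x : ℝ} (ht : 0 < t) (htt : t ≤ t') (ht16 : t ≤ 1 / 16)
    (h8 : ρ * (8 * K) ≤ 1) (h100 : 100 ≤ ρ * N) {η : ℝ} (hη : η ≤ t * ρ) {y : ℤ}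
    (hy : (y : ℝ) ≤ η * N / 2) {s : ℤ} (hs : 4 * (s : ℝ) ≤ ρ * N) (hx : x = (((N / 2 : ℕ) : ℤ) : ℝ))
    (hxN : x = N / 2) :
    (y : ℝ) ≤ t' * (⌊ρ * N⌋ : ℤ) ∧ 16 * y ≤ ⌊ρ * N⌋ ∧ K * ⌊ρ * N⌋ ≤ ((N / 2 : ℕ) : ℤ) ∧
      8 * ⌊ρ * N⌋ ≤ ((N / 2 : ℕ) : ℤ) ∧ ρ * N ≤ 2 * (⌊ρ * N⌋ : ℤ) ∧ s ≤ ⌊ρ * N⌋ ∧
      50 ≤ ⌊ρ * N⌋ := by
  have hKr : (8 : ℝ) ≤ K := by exact_mod_cast hK
  obtain ⟨R, hR⟩ : ∃ R, R = ⌊ρ * N⌋ := ⟨_, rfl⟩
  rw [← hR]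
  have R1a : (R : ℝ) ≤ ρ * N := by rw [hR]; exact Int.floor_le _
  have R1b : ρ * N - 1 < R := by rw [hR]; linarith [Int.lt_floor_add_one (ρ * (N : ℝ))]
  have hNr : (0 : ℝ) ≤ N := Nat.cast_nonneg N
  have hRp : (0 : ℝ) < R := by linarith
  have hR2 : ρ * N ≤ 2 * (R : ℝ) := by linarith
  have e0 : (y : ℝ) ≤ t * R := by
    have e1 : η * N / 2 ≤ t * ρ * N / 2 := by
      have := mul_le_mul_of_nonneg_right hη hNr
      linarith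
    have e3 : t * (ρ * N / 2) ≤ t * R := mul_le_mul_of_nonneg_left (by linarith) ht.le
    linarith
  have e1 : (K : ℝ) * R ≤ x := by
    have e2 : (K : ℝ) * R ≤ K * (ρ * N) := mul_le_mul_of_nonneg_left R1a (by linarith)
    have e3 : ρ * (8 * K) * N ≤ 1 * N := mul_le_mul_of_nonneg_right h8 hNr
    rw [hxN]
    nlinarith
  refine ⟨e0.trans (mul_le_mul_of_nonneg_right htt hRp.le), ?_, ?_, ?_, hR2, ?_, ?_⟩
  · have : (16 : ℝ) * y ≤ R := by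
      have := mul_le_mul_of_nonneg_right ht16 hRp.le
      linarith
    exact_mod_cast this
  · have : ((K * R : ℤ) : ℝ) ≤ (((N / 2 : ℕ) : ℤ) : ℝ) := by
      rw [← hx]; push_cast; exact e1
    exact_mod_cast this
  · have : ((8 * R : ℤ) : ℝ) ≤ (((N / 2 : ℕ) : ℤ) : ℝ) := by
      rw [← hx]; push_cast
      have := mul_le_mul_of_nonneg_right hKr hRp.le
      linarith
    exact_mod_cast this
  · have : (s : ℝ) ≤ R := by linarith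
    exact_mod_cast this
  · have : (50 : ℝ) ≤ R := by linarith
    exact_mod_cast this

/-- The radius at `c`. -/
theorem num_c {η t x : ℝ} (hη : η ≤ t / 8) (h100 : 100 ≤ η * N) {a₀ : ℤ}
    (ha : |(a₀ : ℝ)| ≤ η * N) (h2 : (N : ℝ) ≤ (η * N) ^ 2) (hx : x = (((N / 2 : ℕ) : ℤ) : ℝ))
    (hxN : x = N / 2) :
    a₀ ≤ ⌈η * (N : ℝ)⌉ + 1 ∧ ((⌈η * (N : ℝ)⌉ + 1 : ℤ) : ℝ) ≤ t * (((N / 2 : ℕ) : ℤ) : ℝ) ∧
      ((N / 2 : ℕ) : ℤ) ≤ (⌈η * (N : ℝ)⌉ + 1) ^ 2 := by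
  obtain ⟨rc, hrc⟩ : ∃ rc : ℤ, rc = ⌈η * (N : ℝ)⌉ + 1 := ⟨_, rfl⟩
  rw [← hrc]
  have c1 : η * N ≤ rc := by rw [hrc]; push_cast; linarith [Int.le_ceil (η * (N : ℝ))]
  have c2 : (rc : ℝ) ≤ 2 * (η * N) := by
    rw [hrc]; push_cast; linarith [Int.ceil_lt_add_one (η * (N : ℝ))]
  have hNr : (0 : ℝ) ≤ N := Nat.cast_nonneg N
  refine ⟨?_, ?_, ?_⟩
  · have : (a₀ : ℝ) ≤ rc := (le_abs_self _).trans (ha.trans c1)
    exact_mod_cast this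
  · rw [← hx, hxN]
    have := mul_le_mul_of_nonneg_right hη hNr
    nlinarith
  · have : (((N / 2 : ℕ) : ℤ) : ℝ) ≤ ((rc ^ 2 : ℤ) : ℝ) := by
      rw [← hx, hxN]
      push_cast
      have : (η * N) ^ 2 ≤ (rc : ℝ) ^ 2 := pow_le_pow_left₀ (by linarith) c1 2
      linarith
    exact_mod_cast this

theorem len_le {B : ℕ} {ρ : ℝ} (hρ : 0 < ρ) {L R : ℤ} (hL : L ≤ B) (hR : ρ * N ≤ 2 * R) :
    L * N ≤ ((⌈2 * (B : ℝ) / ρ⌉₊ : ℕ) : ℤ) * R := by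
  have h0 : (0 : ℝ) ≤ N := Nat.cast_nonneg N
  have hR0 : (0 : ℝ) ≤ R := by nlinarith
  have h1 : 2 * (B : ℝ) / ρ ≤ (⌈2 * (B : ℝ) / ρ⌉₊ : ℝ) := Nat.le_ceil _
  have h2 : 2 * (B : ℝ) / ρ * R ≤ (⌈2 * (B : ℝ) / ρ⌉₊ : ℝ) * R := mul_le_mul_of_nonneg_right h1 hR0
  have h3 : (B : ℝ) * N ≤ 2 * (B : ℝ) / ρ * R := by
    rw [div_mul_eq_mul_div, le_div_iff₀ hρ]
    have : (0 : ℝ) ≤ B := Nat.cast_nonneg B
    nlinarith
  have h4 : (L : ℝ) ≤ B := by exact_mod_cast hL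
  have h5 : (L : ℝ) * N ≤ B * N := mul_le_mul_of_nonneg_right h4 h0
  have : ((L * N : ℤ) : ℝ) ≤ ((((⌈2 * (B : ℝ) / ρ⌉₊ : ℕ) : ℤ) * R : ℤ) : ℝ) := by
    push_cast
    linarith
  exact_mod_cast this

/-- The factor does not depend on the shape. -/
theorem zS_cP (h : P.Ok 2) (hN : 4 ∣ N) (hN4 : 4 ≤ N) (χ : ℂ → ℝ) (η : ℝ) (rc : ℤ) :
    zS μ (H825.Q.qS (Sh4.dat h) N (lc P N : ZMod _)) rc
        (fun s => μ * lb χ ((P.l : ℤ) - P.j) η N s) =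
      zS μ (0, 0) rc (fun s => μ * lb χ 0 η N s) := by
  have hN0 : 0 < N := by omega
  obtain ⟨M, hM⟩ := hN
  rw [q_lc h hN0]
  have e1 : cP P N = (0, 0) + cP P N := by simp
  rw [e1, QB.zS_tr]
  · congr 1
    funext z
    rw [lb_trans χ ((P.l : ℤ) - P.j) η hN0]
    congr 2
    unfold cP
    simp
  · simp only [cP, hM]
    push_cast
    rw [show ((P.l : ℤ) - P.j) * (4 * M) + 0 = 2 * (2 * (((P.l : ℤ) - P.j) * M)) by ring]
    exact even_two_mul _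

/-- **The conclusion for one shape.** -/
theorem one_shape (h0 : 0 < μ) (h1 : μ ≤ Real.pi / 3) (h : P.Ok 2) (hN : 4 ∣ N) (hN4 : 4 ≤ N)
    {K : ℤ} (hK : 1 ≤ K) {χ : ℂ → ℝ} (hχ : Shp0 χ) {η η' : ℝ} (hη : 0 < η) (hη' : 0 < η') {Cm : ℝ}
    (hb : ∀ i, Bp Cm (0, 0) (a2 K η' N i) (f2 χ K η' N i)) (ha0 : 0 ≤ a2 K η' N 0)
    (ha : a2 K η' N 0 ≤ a2 K η' N 1) (ha1 : 1 ≤ a2 K η' N 1) {R1 rc : ℤ}
    (hR1 : 4 * a2 K η' N 1 < R1) (hR2 : R1 + 2 ≤ ((N / 2 : ℕ) : ℤ)) {ε : ℝ}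
    (key : |Ex (2 * Real.cos μ) ((Sh4.dat h).D N) (eN h N)
        (XG μ (H825.Q.qS (Sh4.dat h) N) ((Sh4.dat h).D N) (ka P N)
          (fun z => Ft (fun _ => μ / 2) (f2 χ K η' N) 0 z -
            (fun s => μ * lb (two K χ) ((P.l : ℤ) - P.j) η N s) z)) -
        zS μ (H825.Q.qS (Sh4.dat h) N (lc P N : ZMod _)) rc
            (fun s => μ * lb (two K χ) ((P.l : ℤ) - P.j) η N s) *
          Ex (2 * Real.cos μ) ((Sh4.dat h).D N) (eN h N) (fun ω =>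
            Xcd μ (H825.Q.qS (Sh4.dat h) N) ((Sh4.dat h).D N) (ka P N) (lc P N) (f2 χ K η' N) ω *
              nH (H825.Q.qS (Sh4.dat h) N (md P N : ZMod _)) (4 * a2 K η' N 1) R1 ω)| ≤
      ε * |Ex (2 * Real.cos μ) ((Sh4.dat h).D N) (eN h N)
        (XG μ (H825.Q.qS (Sh4.dat h) N) ((Sh4.dat h).D N) (ka P N)
          (fun z => Ft (fun _ => μ / 2) (f2 χ K η' N) 0 z -
            (fun s => μ * lb (two K χ) ((P.l : ℤ) - P.j) η N s) z))| ∧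
      0 < zS μ (H825.Q.qS (Sh4.dat h) N (lc P N : ZMod _)) rc
            (fun s => μ * lb (two K χ) ((P.l : ℤ) - P.j) η N s) ∧
      Ex (2 * Real.cos μ) ((Sh4.dat h).D N) (eN h N) (fun ω =>
          max (-(Xcd μ (H825.Q.qS (Sh4.dat h) N) ((Sh4.dat h).D N) (ka P N) (lc P N)
            (f2 χ K η' N) ω)) 0 *
              nH (H825.Q.qS (Sh4.dat h) N (md P N : ZMod _)) (4 * a2 K η' N 1) R1 ω) ≤
        ε * Ex (2 * Real.cos μ) ((Sh4.dat h).D N) (eN h N) (fun ω =>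
            Xcd μ (H825.Q.qS (Sh4.dat h) N) ((Sh4.dat h).D N) (ka P N) (lc P N) (f2 χ K η' N) ω *
              nH (H825.Q.qS (Sh4.dat h) N (md P N : ZMod _)) (4 * a2 K η' N 1) R1 ω)) :
    |Vcd h0 h1 (two K χ) h η η' N - zS μ (0, 0) rc (fun s => μ * lb (two K χ) 0 η N s) *
        ∑ p ∈ Idx (0, 0) (4 * a2 K η' N 1) R1,
        cof μ (0, 0) (2 * a2 K η' N 1) (4 * a2 K η' N 1) R1 (fun z => μ * lb (two K χ) 0 η' N z) p *
          PZ μ N (0, 0) P (Zi p) (ζi p)| ≤ ε * |Vcd h0 h1 (two K χ) h η η' N| ∧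
    0 < zS μ (0, 0) rc (fun s => μ * lb (two K χ) 0 η N s) ∧
    ∑ p ∈ Idx (0, 0) (4 * a2 K η' N 1) R1,
        max (-cof μ (0, 0) (2 * a2 K η' N 1) (4 * a2 K η' N 1) R1
          (fun z => μ * lb (two K χ) 0 η' N z) p) 0 * PZ μ N (0, 0) P (Zi p) (ζi p) ≤
      ε * ∑ p ∈ Idx (0, 0) (4 * a2 K η' N 1) R1,
        cof μ (0, 0) (2 * a2 K η' N 1) (4 * a2 K η' N 1) R1 (fun z => μ * lb (two K χ) 0 η' N z) p *
          PZ μ N (0, 0) P (Zi p) (ζi p) := by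
  have hN0 : 0 < N := by omega
  have hVf : (fun z => Ft (fun _ => μ / 2) (f2 χ K η' N) 0 z -
      (fun s => μ * lb (two K χ) ((P.l : ℤ) - P.j) η N s) z) =
      fun z => μ * lb (two K χ) 0 η' N z - μ * lb (two K χ) ((P.l : ℤ) - P.j) η N z := by
    funext z
    rw [Ft_two hK hχ hη']
    simp
  obtain ⟨S1, S2⟩ := sums (R1 := R1) h0 h1 h hN hN4 hK hχ hη' hb ha0 ha ha1 hR1 hR2
  rw [hVf, ← Vcd_eq h0 h1 (two_shp hK hχ) h hη hη' hN0, zS_cP h hN hN4, q_md h hN0, S1, S2] at key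
  exact key

/-- **[BRQ] from the finite-volume form.** -/
theorem brQ_of (h0 : 0 < μ) (h1 : μ ≤ Real.pi / 3) (hR : RSW (2 * Real.cos μ))
    (hS : SRSW (2 * Real.cos μ)) (hB : S_brf μ) {ε : ℝ} (hε : 0 < ε) :
    ∃ χ : ℂ → ℝ, Shp Complex.I χ ∧ BrQ h0 h1 χ ε := by
  classical
  have hQ1 : 1 ≤ 2 * Real.cos μ := H542.Q.BD.one_le h0 h1
  obtain ⟨χ₀, hχ₀⟩ := exists_shp0
  obtain ⟨Kg, hKg, hB1⟩ := hB 1000 (by norm_num) le_rfl ε hε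
  have hKg1 : 1 ≤ Kg := by omega
  have hKgR : (8 : ℝ) ≤ Kg := by exact_mod_cast hKg
  obtain ⟨K, hK, hbq⟩ := bq_lb (two_shp hKg1 hχ₀) h0
  refine ⟨two Kg χ₀, two_shp hKg1 hχ₀, fun Sh hSh r₁ hr₁ => ?_⟩
  -- the length of the shapes
  obtain ⟨B, hBd⟩ : ∃ B : ℕ, ∀ P ∈ Sh, P.l - P.j ≤ B := by
    obtain ⟨B, hB'⟩ := (hSh.image fun P : Sh4 => P.l - P.j).bddAbove
    exact ⟨B, fun P hP => hB' (Set.mem_image_of_mem _ hP)⟩
  obtain ⟨ρ₁, hρ1, hρ2, hρ3⟩ : ∃ ρ₁ : ℝ, 0 < ρ₁ ∧ ρ₁ ≤ r₁ ∧ ρ₁ * (8 * Kg) ≤ 1 := by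
    refine ⟨min r₁ (1 / (8 * Kg)), by positivity, min_le_left _ _, ?_⟩
    have : min r₁ (1 / (8 * (Kg : ℝ))) ≤ 1 / (8 * Kg) := min_le_right _ _
    calc _ ≤ 1 / (8 * (Kg : ℝ)) * (8 * Kg) := mul_le_mul_of_nonneg_right this (by positivity)
      _ = 1 := by field_simp
  obtain ⟨c₁, s₁, hc₁, -, hd₁⟩ := dar_ge hQ1 hR hS ⌈2 * (B : ℝ) / ρ₁⌉₊
  obtain ⟨t₀', ht₀', hB2⟩ := hB1 Kg le_rfl c₁ hc₁
  obtain ⟨t₀, ht₀, ht₀1, ht₀2⟩ : ∃ t₀ : ℝ, 0 < t₀ ∧ t₀ ≤ t₀' ∧ t₀ ≤ 1 / 16 :=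
    ⟨min t₀' (1 / 16), by positivity, min_le_left _ _, min_le_right _ _⟩
  refine ⟨t₀ * ρ₁, by positivity, fun η' hη' hη't => ?_⟩
  obtain ⟨c₂, s₂, hc₂, -, hd₂⟩ := dar_ge hQ1 hR hS ⌈2 * (B : ℝ) / (η' / Kg)⌉₊
  obtain ⟨t₁, a₀, ht₁, hB3⟩ := hB2 c₂ hc₂ K hK
  refine ⟨t₁ / 8, by positivity, fun η hη hηt => ⟨η', hη', ?_⟩⟩
  have hη'K : 0 < η' / Kg := by positivity
  have hlarge : ∀ X : ℝ, ∀ y : ℝ, 0 < y → ∀ᶠ N : ℕ in atTop, X ≤ y * N := fun X y hy => by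
    filter_upwards [tendsto_natCast_atTop_atTop.eventually_ge_atTop (X / y)] with N hN
    rwa [div_le_iff₀ hy, mul_comm] at hN
  have hlarge2 : ∀ᶠ N : ℕ in atTop, (N : ℝ) ≤ (η * N) ^ 2 := by
    filter_upwards [hlarge 1 (η ^ 2) (by positivity)] with N hN
    have hN0 : (0 : ℝ) ≤ N := Nat.cast_nonneg N
    nlinarith
  refine eventually_inf_principal.2 ?_
  filter_upwards [bp_lb hχ₀ η' hη', bp_lb hχ₀ (η' / Kg) hη'K, hbq η hη,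
    hlarge (max (4 * s₁) 100) ρ₁ hρ1,
    hlarge (max (4 * |(a₀ : ℝ)|) (max (4 * |(s₂ : ℝ)|) 100)) (η' / Kg) hη'K,
    hlarge (max (|(a₀ : ℝ)|) 100) η hη, hlarge2, eventually_ge_atTop 100] with
    N n1 n2 n3 n4 n5 n6 n7 n8 hN4'
  have hNh : (((N / 2 : ℕ) : ℤ) : ℝ) = N / 2 := by
    obtain ⟨M, hM⟩ := hN4'
    have : N / 2 = 2 * M := by omega
    rw [this, hM]; push_cast; ring
  obtain ⟨u1, u2, u3, u4, u5, u6, u7, u8⟩ := num_a (N := N) a₀ hKg ((le_max_left _ _).trans n5)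
    (((le_max_right _ _).trans (le_max_right _ _)).trans n5)
  obtain ⟨v1, v2, v3, v4, v5, v6, v7⟩ := num_R (N := N) hKg ht₀ ht₀1 ht₀2 hρ3
    ((le_max_right _ _).trans n4) hη't u8 ((le_max_left _ _).trans n4) rfl hNh
  obtain ⟨w1, w2, w3⟩ := num_c (N := N) hηt ((le_max_right _ _).trans n6)
    ((le_max_left _ _).trans n6) n7 rfl hNh
  have m5b : 4 * |(s₂ : ℝ)| ≤ η' / Kg * N := ((le_max_left _ _).trans (le_max_right _ _)).trans n5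
  clear n4 n5 n6 n7 hlarge hlarge2
  have hs2 : s₂ ≤ 4 * a2 Kg η' N 0 := by
    have : (s₂ : ℝ) ≤ ((4 * a2 Kg η' N 0 : ℤ) : ℝ) := by
      linarith [le_abs_self (s₂ : ℝ), abs_nonneg (s₂ : ℝ)]
    exact_mod_cast this
  have hb : ∀ i, Bp 1000 (0, 0) (a2 Kg η' N i) (f2 χ₀ Kg η' N i) := by
    intro i
    fin_cases i
    · exact n2
    · exact n1
  obtain ⟨R₁, hR₁⟩ : ∃ R₁ : ℤ, R₁ = ⌊ρ₁ * N⌋ := ⟨_, rfl⟩
  obtain ⟨rc, hrc⟩ : ∃ rc : ℤ, rc = ⌈η * (N : ℝ)⌉ + 1 := ⟨_, rfl⟩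
  have hRr : R₁ ≤ ⌊r₁ * N⌋ := by
    rw [hR₁]
    exact Int.floor_le_floor (mul_le_mul_of_nonneg_right hρ2 (Nat.cast_nonneg N))
  rw [← hR₁] at v1 v2 v3 v4 v5 v6 v7
  rw [← hrc] at w1 w2 w3 n3
  -- the data
  obtain ⟨z', hz'⟩ : ∃ z' : ℝ, z' = zS μ (0, 0) rc (fun s => μ * lb (two Kg χ₀) 0 η N s) := ⟨_, rfl⟩
  refine ⟨↥(Idx (0, 0) (4 * a2 Kg η' N 1) R₁), inferInstance,
    fun i => cof μ (0, 0) (2 * a2 Kg η' N 1) (4 * a2 Kg η' N 1) R₁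
      (fun z => μ * lb (two Kg χ₀) 0 η' N z) i.1,
    fun i => Zi i.1, fun i => ζi i.1, if 0 < z' then z' else 1, ?_, fun i => ?_,
    fun P hP h _ => ?_⟩
  · split_ifs with hz
    · exact hz
    · exact one_pos
  · exact adm_idx (by omega) (by omega) u7 hRr i.2
  · have G := geo2 h hN4' (by omega)
    have q1 := q_md h (N := N) (by omega)
    have q2 := q_lc h (N := N) (by omega)
    have hLB : (P.l : ℤ) - P.j ≤ B := by
      have := hBd P hP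
      omega
    have hd1 := hd₁ P h N R₁ hN4' (by omega) v6 (by omega) (len_le hρ1 hLB v5)
    have hd2 := hd₂ P h N (4 * a2 Kg η' N 0) hN4' (by omega) hs2 (by omega)
      (len_le hη'K hLB u6)
    have hfc : QB.Bq' μ K (H825.Q.qS (Sh4.dat h) N (lc P N : ZMod _)) rc
        (fun s => μ * lb (two Kg χ₀) ((P.l : ℤ) - P.j) η N s) := by
      rw [q2]
      exact n3 ((P.l : ℤ) - P.j)
    have key := one_shape h0 h1 h hN4' (by omega) hKg1 hχ₀ hη hη' hb (by omega) u4 (by omega)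
      (R1 := R₁) (rc := rc) (by omega) (by omega)
      (hB3 _ _ _ _ _ _ _ _ _ G (a2 Kg η' N) u1 u3 u5 (f2 χ₀ Kg η' N)
        (by intro i; rw [q1]; exact hb i) R₁ v1 v3 rc _ w1 w2 w3 hfc hd1 hd2)
    rw [← hz'] at key
    obtain ⟨k1, k2, k3⟩ := key
    have T1 := Finset.sum_coe_sort (Idx (0, 0) (4 * a2 Kg η' N 1) R₁) (fun p =>
      cof μ (0, 0) (2 * a2 Kg η' N 1) (4 * a2 Kg η' N 1) R₁
        (fun z => μ * lb (two Kg χ₀) 0 η' N z) p * PZ μ N (0, 0) P (Zi p) (ζi p))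
    have T2 := Finset.sum_coe_sort (Idx (0, 0) (4 * a2 Kg η' N 1) R₁) (fun p =>
      max (-cof μ (0, 0) (2 * a2 Kg η' N 1) (4 * a2 Kg η' N 1) R₁
        (fun z => μ * lb (two Kg χ₀) 0 η' N z) p) 0 * PZ μ N (0, 0) P (Zi p) (ζi p))
    rw [if_pos k2, T1, T2]
    exact ⟨k1, k3⟩

end Vale.Agent.P167.BQ460
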