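import Vale.Agent.P167.QT.Defs
import Vale.Agent.P167.H562.Q.CB3

/-!
# P167, general `q`, assembly of `BrQ`: the lattice geometry of the family of a shape

`P : Sh4`, `P.Ok ρ`, mirror image `mirq P.q`; `N` squares are one unit, `N` even. In the polygon
`qS (dat h) N` (base site at the position `N / 2` of the side `0`) the mark `d` has the index `md P N`, the
mark `c` the index `lc P N`, the first wired step is `ka P N`.
-/

set_option autoImplicit false

namespace Vale.Agent.P167.BQ460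

open Finset
open Vale.Agent.P167.BR (sites hbox Jn mem_hbox mem_sites mem_sites_hbox)
open Vale.Agent.P167.H718 (etaW Dob opW arnd)
open Vale.Agent.P167.E6 (IsPolygon Encloses dir face)
open Vale.Agent.P167.QT
open Vale.Agent.P167.FK (Good)
open Vale.Agent.P167.H562.QM (FltQ)

variable {P : Sh4} {ρ N : ℕ}

/-- The index of `d`. -/
def md (P : Sh4) (N : ℕ) : ℕ := (P.m + 1 - P.l) * N - N / 2

/-- The index of `c`. -/
def lc (P : Sh4) (N : ℕ) : ℕ := (P.m + 1 - P.j) * N - N / 2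

/-- The first wired step. -/
def ka (P : Sh4) (N : ℕ) : ℕ := (P.m - P.k) * N

/-- The site of `c` in the mirror image. -/
def cP (P : Sh4) (N : ℕ) : ℤ × ℤ := (((P.l : ℤ) - P.j) * N, 0)

/-- The line of the mirror image. -/
theorem mirq_line (h : P.Ok ρ) {i : ℕ} (hi : i + P.j ≤ P.m + 1 + ρ) :
    mirq P.q (i : ZMod P.m) = ((i : ℤ) - (P.m + 1 - P.l), 0) := by
  have h1 := h.k_lt
  have h2 := h.j_lt
  have h3 := h.l_lt
  have hi' : i ≤ P.m + 1 := by omega
  unfold mirq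
  have e : (1 - (i : ZMod P.m)) = ((P.m + 1 - i : ℕ) : ZMod P.m) := by
    rw [Nat.cast_sub hi']
    push_cast
    rw [ZMod.natCast_self]
    ring
  rw [e, h.line _ (by omega) (by omega)]
  simp only [mir]
  push_cast [Nat.cast_sub hi']
  ext
  · simp only; ring
  · rfl

/-- The direction of the line. -/
theorem pdir_line (h : P.Ok ρ) {i : ℕ} (hi : i + 1 + P.j ≤ P.m + 1 + ρ) :
    dir (H825.pdir (mirq P.q) i) = (1, 0) := by
  have hp := isPolygon_mirq h.poly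
  have h1 := Enl.pdir_step hp i
  have h2 := mirq_line h (i := i) (by omega)
  have h3 := mirq_line h (i := i + 1) hi
  push_cast at h3
  rw [h1, h2] at h3
  have h4 := congrArg Prod.fst h3
  have h5 := congrArg Prod.snd h3
  simp only [Prod.fst_add, Prod.snd_add] at h4 h5
  ext
  · simp only; linarith
  · simp only; linarith

/-- The points of the line in the enlargement. -/
theorem PN_line (h : P.Ok ρ) (hN : 0 < N) {t : ℕ} (ht : t ≤ (P.m + 1 + ρ - P.j) * N) :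
    Enl.PN (mirq P.q) N t = ((t : ℤ) - (P.m + 1 - P.l) * N, 0) := by
  have h1 := h.k_lt
  have h2 := h.j_lt
  have h3 := h.l_lt
  have hm := Nat.div_add_mod' t N
  have hj := Nat.mod_lt t hN
  set i := t / N with hi
  set s := t % N with hs
  have hle : i ≤ P.m + 1 + ρ - P.j := by
    have : i * N ≤ (P.m + 1 + ρ - P.j) * N := by omega
    exact Nat.le_of_mul_le_mul_right this hN
  rw [← hm, Enl.PN_lin hN hj, mirq_line h (i := i) (by omega)]
  rcases Nat.eq_zero_or_pos s with h0 | h0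
  · rw [h0]
    ext
    · simp only [Prod.fst_add, Prod.smul_fst, smul_eq_mul]; push_cast; ring
    · simp
  · have hlt : i < P.m + 1 + ρ - P.j := by
      rcases Nat.lt_or_ge i (P.m + 1 + ρ - P.j) with h4 | h4
      · exact h4
      · exfalso
        have : (P.m + 1 + ρ - P.j) * N ≤ i * N := Nat.mul_le_mul_right N h4
        omega
    rw [pdir_line h (i := i) (by omega)]
    ext
    · simp only [Prod.fst_add, Prod.smul_fst, smul_eq_mul]; push_cast; ring
    · simp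

theorem tN_dat (h : P.Ok ρ) (N : ℕ) : H825.Q.tN (Sh4.dat h) N = N / 2 := by
  unfold H825.Q.tN
  show ⌊(1 / 2 : ℝ) * (N : ℝ)⌋₊ = N / 2
  rw [show (1 / 2 : ℝ) * (N : ℝ) = (N : ℝ) / (2 : ℕ) by push_cast; ring]
  exact Nat.floor_div_eq_div N 2

theorem m_pos (h : P.Ok ρ) : 2 < P.m := h.poly.1

/-- **The boundary sites of the line.** -/
theorem qS_line (h : P.Ok ρ) (hN : 0 < N) {x : ℕ} (hx : x + N / 2 ≤ (P.m + 1 + ρ - P.j) * N) :
    H825.Q.qS (Sh4.dat h) N (x : ZMod _) = ((x : ℤ) + (N / 2 : ℕ) - (P.m + 1 - P.l) * N, 0) := by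
  have h0 := m_pos h
  haveI : NeZero (Sh4.dat h).l := ⟨by show P.m ≠ 0; omega⟩
  unfold H825.Q.qS
  rw [tN_dat, Enl.qN_nat hN]
  show Enl.PN (mirq P.q) N (x + N / 2) = _
  rw [PN_line h hN hx]
  push_cast
  rfl

theorem md_add (h : P.Ok ρ) : md P N + N / 2 = (P.m + 1 - P.l) * N := by
  have h3 := h.l_lt
  unfold md
  have h4 : 1 * N ≤ (P.m + 1 - P.l) * N := Nat.mul_le_mul_right N (by omega)
  omega

theorem lc_add (h : P.Ok ρ) : lc P N + N / 2 = (P.m + 1 - P.j) * N := by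
  have h2 := h.j_lt
  have h3 := h.l_lt
  unfold lc
  have h4 : 1 * N ≤ (P.m + 1 - P.j) * N := Nat.mul_le_mul_right N (by omega)
  omega

/-- The mark `d`. -/
theorem q_md (h : P.Ok ρ) (hN : 0 < N) : H825.Q.qS (Sh4.dat h) N (md P N : ZMod _) = (0, 0) := by
  have h2 := h.j_lt
  have h3 := h.l_lt
  have h4 := md_add (N := N) h
  rw [qS_line h hN (by rw [h4]; exact Nat.mul_le_mul_right N (by omega))]
  have h5 : ((md P N : ℕ) : ℤ) + ((N / 2 : ℕ) : ℤ) = ((P.m + 1 - P.l : ℕ) : ℤ) * N := by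
    exact_mod_cast h4
  rw [h5, Nat.cast_sub (by omega)]
  push_cast
  ext
  · simp only; ring
  · rfl

/-- The mark `c`. -/
theorem q_lc (h : P.Ok ρ) (hN : 0 < N) : H825.Q.qS (Sh4.dat h) N (lc P N : ZMod _) = cP P N := by
  have h2 := h.j_lt
  have h3 := h.l_lt
  have h4 := lc_add (N := N) h
  rw [qS_line h hN (by rw [h4]; exact Nat.mul_le_mul_right N (by omega))]
  have h5 : ((lc P N : ℕ) : ℤ) + ((N / 2 : ℕ) : ℤ) = ((P.m + 1 - P.j : ℕ) : ℤ) * N := by
    exact_mod_cast h4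
  rw [h5, Nat.cast_sub (by omega)]
  unfold cP
  push_cast
  ext
  · simp only; ring
  · rfl

/-- The base site. -/
theorem q_zero (h : P.Ok ρ) (hN : 0 < N) : H825.Q.qS (Sh4.dat h) N 0 =
    (((N / 2 : ℕ) : ℤ) - (P.m + 1 - P.l) * N, 0) := by
  have h2 := h.j_lt
  have h3 := h.l_lt
  have h4 := qS_line h hN (x := 0) (by
    have : 1 * N ≤ (P.m + 1 + ρ - P.j) * N := Nat.mul_le_mul_right N (by omega)
    omega)
  rw [Nat.cast_zero, Nat.cast_zero, zero_add] at h4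
  exact h4

theorem kS_dat (h : P.Ok ρ) (hN : 0 < N) : H825.Q.kS (Sh4.dat h) P.bc N = ka P N := by
  unfold H825.Q.kS
  rw [tN_dat]
  show Enl.kOf P.m N (N / 2) (P.m - P.k) ⌊(1 / 2 : ℝ) * (N : ℝ)⌋₊ = _
  rw [show (1 / 2 : ℝ) * (N : ℝ) = (N : ℝ) / (2 : ℕ) by push_cast; ring, Nat.floor_div_eq_div]
  unfold Enl.kOf ka
  have h1 := h.k_pos
  have h2 := h.k_lt
  have h3 := h.j_lt
  have h4 := h.l_lt
  rw [if_pos (by omega)]
  omega

/-- The indices. -/
theorem md_lt_lc (h : P.Ok ρ) (hρ : 1 ≤ ρ) (hN : 0 < N) : md P N + N ≤ lc P N := by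
  have h1 := md_add (N := N) h
  have h2 := lc_add (N := N) h
  have h3 := h.j_lt
  have h4 := h.l_lt
  have h5 : (P.m + 1 - P.l + 1) * N ≤ (P.m + 1 - P.j) * N := Nat.mul_le_mul_right N (by omega)
  rw [add_mul, one_mul] at h5
  omega

theorem lc_lt_ka (h : P.Ok ρ) (hN : 0 < N) : lc P N + ρ * N ≤ ka P N := by
  have h2 := lc_add (N := N) h
  have h1 := h.k_lt
  have h3 := h.j_lt
  have h4 := h.l_lt
  unfold ka
  have h5 : (P.m + 1 - P.j + ρ) * N ≤ (P.m - P.k) * N := Nat.mul_le_mul_right N (by omega)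
  rw [add_mul] at h5
  omega

theorem ka_le (h : P.Ok ρ) : ka P N ≤ P.m * N := by
  unfold ka
  exact Nat.mul_le_mul_right N (by omega)

/-- **The squares near the line.** -/
theorem mem_D (h : P.Ok ρ) (hN : 0 < N) {v : ℤ × ℤ} (h1 : -(ρ : ℤ) * N ≤ v.1)
    (h2 : v.1 < ((P.l : ℤ) - P.j + ρ) * N) (h3 : -(ρ : ℤ) * N ≤ v.2) (h4 : v.2 < (ρ : ℤ) * N) :
    v ∈ (Sh4.dat h).D N ↔ 0 ≤ v.2 := by
  have hN' : (0 : ℤ) < N := by exact_mod_cast hN
  show v ∈ CA.enl (mirS P.S) N ↔ _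
  rw [CL.mem_enl_iff hN, mem_mirS]
  have e1 : -(ρ : ℤ) ≤ v.1 / N := by rw [Int.le_ediv_iff_mul_le hN']; exact h1
  have e2 : v.1 / N < (P.l : ℤ) - P.j + ρ := by rw [Int.ediv_lt_iff_lt_mul hN']; exact h2
  have e3 : -(ρ : ℤ) ≤ v.2 / N := by rw [Int.le_ediv_iff_mul_le hN']; exact h3
  have e4 : v.2 / N < (ρ : ℤ) := by rw [Int.ediv_lt_iff_lt_mul hN']; exact h4
  rw [h.flat (msq (v.1 / N, v.2 / N)) (by simp only [msq]; omega) (by simp only [msq]; omega)
    (by simp only [msq]; omega) (by simp only [msq]; omega)]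
  simp only [msq]
  rw [Int.le_ediv_iff_mul_le hN', zero_mul]

/-- A boundary site near the line is on the line. -/
theorem q_line (h : P.Ok ρ) (hN : 0 < N) {i : ZMod ((Sh4.dat h).l * N)}
    (h1 : -(ρ : ℤ) * N < (H825.Q.qS (Sh4.dat h) N i).1)
    (h2 : (H825.Q.qS (Sh4.dat h) N i).1 < ((P.l : ℤ) - P.j + ρ) * N)
    (h3 : -(ρ : ℤ) * N < (H825.Q.qS (Sh4.dat h) N i).2)
    (h4 : (H825.Q.qS (Sh4.dat h) N i).2 < (ρ : ℤ) * N) : (H825.Q.qS (Sh4.dat h) N i).2 = 0 := by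
  have hq : IsPolygon (H825.Q.qS (Sh4.dat h) N) := Enl.isPolygon_qN hN (Sh4.dat h).poly _
  have hD : Encloses (H825.Q.qS (Sh4.dat h) N) ((Sh4.dat h).D N) :=
    Enl.encloses_qN hN (Sh4.dat h).poly (Sh4.dat h).enc _
  obtain ⟨r, hr⟩ := hq.2.2 i
  obtain ⟨g1, g2⟩ := (hD (H825.Q.qS (Sh4.dat h) N i) r).1 ⟨i, rfl, hr⟩
  generalize H825.Q.qS (Sh4.dat h) N i = z at *
  have hf : ∀ r' : Fin 4, (z.1 - 1 ≤ (face z r').1 ∧ (face z r').1 ≤ z.1) ∧
      z.2 - 1 ≤ (face z r').2 ∧ (face z r').2 ≤ z.2 := by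
    intro r'
    fin_cases r' <;> simp [face]
  obtain ⟨⟨a1, a2⟩, a3, a4⟩ := hf r
  obtain ⟨⟨b1, b2⟩, b3, b4⟩ := hf (r - 1)
  rw [mem_D h hN (by linarith) (by linarith) (by linarith) (by linarith)] at g1
  rw [mem_D h hN (by linarith) (by linarith) (by linarith) (by linarith)] at g2
  omega

theorem q_flat_idx (h : P.Ok ρ) (hN : 0 < N) {j : ℕ} (hj : j < P.m * N)
    (h1 : -(ρ : ℤ) * N < (H825.Q.qS (Sh4.dat h) N (j : ZMod _)).1)
    (h2 : (H825.Q.qS (Sh4.dat h) N (j : ZMod _)).1 < ((P.l : ℤ) - P.j + ρ) * N)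
    (h3 : -(ρ : ℤ) * N < (H825.Q.qS (Sh4.dat h) N (j : ZMod _)).2)
    (h4 : (H825.Q.qS (Sh4.dat h) N (j : ZMod _)).2 < (ρ : ℤ) * N) : j < ka P N := by
  have g1 := h.k_lt
  have g2 := h.j_lt
  have g3 := h.l_lt
  have hq : IsPolygon (H825.Q.qS (Sh4.dat h) N) := Enl.isPolygon_qN hN (Sh4.dat h).poly _
  have h5 := q_line h hN h1 h2 h3 h4
  set z := H825.Q.qS (Sh4.dat h) N (j : ZMod _) with hz
  -- the index on the line
  have e1 : ((P.m + 1 - P.l : ℕ) : ℤ) = P.m + 1 - P.l := by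
    rw [Nat.cast_sub (by omega)]; push_cast; ring
  have hN' : (0 : ℤ) < N := by exact_mod_cast hN
  have e2 : (0 : ℤ) ≤ z.1 + (P.m + 1 - P.l) * N - (N / 2 : ℕ) := by
    have h6 : (ρ + 1 : ℤ) * N ≤ (P.m + 1 - P.l) * N := by
      apply mul_le_mul_of_nonneg_right _ hN'.le
      have : P.l + ρ + 1 ≤ P.m + 1 := by omega
      have : (P.l : ℤ) + ρ + 1 ≤ P.m + 1 := by exact_mod_cast this
      linarith
    have h7 : ((N / 2 : ℕ) : ℤ) ≤ N := by exact_mod_cast Nat.div_le_self N 2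
    nlinarith
  obtain ⟨x, hx⟩ := Int.eq_ofNat_of_zero_le e2
  have e3 : z.1 < ((P.l : ℤ) - P.j + ρ) * N := h2
  have e4 : x + N / 2 < (P.m + 1 + ρ - P.j) * N := by
    have : (x : ℤ) + (N / 2 : ℕ) < ((P.m + 1 + ρ - P.j : ℕ) : ℤ) * N := by
      rw [Nat.cast_sub (by omega), ← hx]
      push_cast
      nlinarith
    exact_mod_cast this
  have e5 := qS_line h hN (x := x) e4.le
  have e6 : H825.Q.qS (Sh4.dat h) N (x : ZMod _) = H825.Q.qS (Sh4.dat h) N (j : ZMod _) := by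
    rw [e5, ← hz]
    ext
    · simp only; rw [← hx]; ring
    · simp only; rw [h5]
  have e7 := hq.2.1 e6
  have e8 : x < ka P N := by
    have := lc_lt_ka (N := N) h hN
    have h8 := lc_add (N := N) h
    have h9 : (P.m + 1 + ρ - P.j) * N = (P.m + 1 - P.j) * N + ρ * N := by
      rw [← add_mul]; congr 1; omega
    omega
  have e9 : x < P.m * N := lt_of_lt_of_le e8 (ka_le h)
  have e10 : ((x : ℕ) : ZMod ((Sh4.dat h).l * N)) = ((j : ℕ) : ZMod ((Sh4.dat h).l * N)) := e7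
  rw [ZMod.natCast_eq_natCast_iff'] at e10
  have e11 : (Sh4.dat h).l * N = P.m * N := rfl
  rw [e11, Nat.mod_eq_of_lt e9, Nat.mod_eq_of_lt hj] at e10
  omega

/-- **Flat boxes**: around every site of the segment from `d` to `c` (and a bit more). -/
theorem fltQ_seg (h : P.Ok ρ) (hN : 0 < N) {b : ℤ × ℤ} {R : ℤ} (hb : b.2 = 0)
    (h1 : -(ρ : ℤ) * N + R + 1 < b.1) (h2 : b.1 + R + 1 < ((P.l : ℤ) - P.j + ρ) * N)
    (h3 : R + 1 < (ρ : ℤ) * N) :
    FltQ ((Sh4.dat h).D N) (etaW ((Sh4.dat h).D N) (H825.Q.qS (Sh4.dat h) N) (ka P N)) b R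
      false false := by
  classical
  constructor
  · intro v hv
    simp only [nm, Prod.fst_sub, Prod.snd_sub, max_le_iff, abs_le] at hv
    rw [mem_D h hN (by linarith) (by linarith) (by linarith) (by linarith), hb]
  · intro v hv hv2
    simp only [nm, Prod.fst_sub, Prod.snd_sub, max_le_iff, abs_le] at hv
    rw [ite_self]
    unfold etaW
    rw [decide_eq_false_iff_not]
    unfold opW
    rw [mem_sdiff, mem_biUnion]
    rintro ⟨⟨j, hj, hj2⟩, -⟩
    rw [mem_filter, mem_Ioo] at hj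
    have hf : ∀ z : ℤ × ℤ, v ∈ arnd z → (v.1 ≤ z.1 ∧ z.1 ≤ v.1 + 1) ∧ v.2 ≤ z.2 ∧ z.2 ≤ v.2 + 1 := by
      intro z hz
      unfold arnd at hz
      simp only [mem_insert, mem_singleton] at hz
      rcases hz with rfl | rfl | rfl | rfl <;> simp [face]
    obtain ⟨⟨a1, a2⟩, a3, a4⟩ := hf _ hj2
    have h5 := q_flat_idx h hN (j := j) hj.1.2 (by linarith) (by linarith) (by linarith)
      (by linarith)
    omega

end Vale.Agent.P167.BQ460
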