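import Vale.Agent.P167.H460.BQ.Geo
import Vale.Agent.P167.CAQ.J6
import Vale.Agent.P167.H640.ND.SymX
import Vale.Agent.P167.QB.FDefs

/-!
# P167, general `q`, assembly of `BrQ`: the mirror image

`PZ_mir`: the probability `PZ` of a shape, for a pair `(Z, ζ)`, is the expectation of `fz` of the mirror image
of the pair in the polygon of the family (`H825.Q.bdQ (Sh4.dat h)`).
-/

set_option autoImplicit false

namespace Vale.Agent.P167.BQ460

open Finset Relation
open Vale.Agent.P145.FB (PStep)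
open Vale.Agent.P167.BR (sites hbox Jn mem_hbox mem_sites mem_sites_hbox)
open Vale.Agent.P167.H718 (etaW Dob OutC)
open Vale.Agent.P167.E6 (IsPolygon Encloses dir face)
open Vale.Agent.P167.QT
open Vale.Agent.P167.FK (Good Ex)
open Vale.Agent.P167.FKA (Loc)
open Vale.Agent.P167.QB (Wa)

variable {P : Sh4} {ρ N : ℕ}

/-! ### the reflection -/

theorem mir_par (z : ℤ × ℤ) : ((mir z).1 + (mir z).2) % 2 = (z.1 + z.2) % 2 := by
  simp only [mir]; omega

theorem mir_even (z : ℤ × ℤ) : Even ((mir z).1 + (mir z).2) ↔ Even (z.1 + z.2) := by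
  rw [Int.even_iff, Int.even_iff, mir_par]

theorem mir_inj : Function.Injective mir := fun a b h => by
  have := congrArg mir h
  rwa [mir_mir, mir_mir] at this

theorem msq_inj : Function.Injective msq := fun a b h => by
  have := congrArg msq h
  rwa [msq_msq, msq_msq] at this

theorem mem_im_msq {S : Finset (ℤ × ℤ)} {v : ℤ × ℤ} : v ∈ S.image msq ↔ msq v ∈ S := mem_mirS

theorem mem_sites_msq {S : Finset (ℤ × ℤ)} {z : ℤ × ℤ} :
    z ∈ sites (S.image msq) ↔ mir z ∈ sites S := by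
  rw [mem_sites, mem_sites]
  constructor
  · rintro ⟨v, hv, h1, h2⟩
    exact ⟨msq v, mem_im_msq.1 hv, by simp only [mir, msq]; omega, by simp only [mir, msq]; omega⟩
  · rintro ⟨v, hv, h1, h2⟩
    refine ⟨msq v, mem_im_msq.2 (by rwa [msq_msq]), ?_, ?_⟩
    · simp only [mir, msq] at *; omega
    · simp only [mir, msq] at *; omega

theorem pstep_mir {F F' : Set (ℤ × ℤ)} (hF : ∀ w, w ∈ F → msq w ∈ F') {u v : ℤ × ℤ}
    (h : PStep F u v) : PStep F' (mir u) (mir v) := by
  obtain ⟨h1, h2, h3⟩ := h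
  refine ⟨by simp only [mir]; omega, by simp only [mir]; omega, ?_⟩
  have e : (min (mir u).1 (mir v).1, min (mir u).2 (mir v).2) =
      msq (min u.1 v.1, min u.2 v.2) := by
    simp only [mir, msq]
    ext
    · simp only; omega
    · rfl
  rw [e]
  exact hF _ h3

theorem refl_mir {F F' : Set (ℤ × ℤ)} (hF : ∀ w, w ∈ F → msq w ∈ F') {u v : ℤ × ℤ}
    (h : ReflTransGen (PStep F) u v) : ReflTransGen (PStep F') (mir u) (mir v) := by
  induction h with
  | refl => exact ReflTransGen.refl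
  | tail _ h ih => exact ih.tail (pstep_mir hF h)

theorem outC_mir {η : Cfg} {D : Finset (ℤ × ℤ)} {s t : ℤ × ℤ} (h : OutC η D s t) :
    OutC (η ∘ msq) (D.image msq) (mir s) (mir t) := by
  refine refl_mir (fun w hw => ?_) h
  obtain ⟨h1, h2⟩ := hw
  refine ⟨?_, ?_⟩
  · show η (msq (msq w)) = true
    rw [msq_msq]
    exact h1
  · intro h3
    apply h2
    have h4 : msq w ∈ D.image msq := h3
    rw [mem_im_msq, msq_msq] at h4
    exact h4

theorem im_msq_im (D : Finset (ℤ × ℤ)) : (D.image msq).image msq = D := by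
  ext v
  rw [mem_im_msq, mem_im_msq, msq_msq]

theorem jn_mir_aux {D : Finset (ℤ × ℤ)} {ω : Cfg} {U T : Set (ℤ × ℤ)} (h : Jn false D ω U T) :
    Jn false (D.image msq) (ω ∘ msq) (mir ⁻¹' U) (mir ⁻¹' T) := by
  obtain ⟨u, hu, t, ht, hp, hr⟩ := h
  refine ⟨mir u, by simpa [mir_mir] using hu, mir t, by simpa [mir_mir] using ht, ?_, ?_⟩
  · rw [mir_par]; exact hp
  · refine refl_mir (fun w hw => ?_) hr
    obtain ⟨h1, h2⟩ := hw
    refine ⟨?_, ?_⟩
    · show ω (msq (msq w)) = false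
      rw [msq_msq]
      exact h1
    · show msq w ∈ D.image msq
      rw [mem_im_msq, msq_msq]
      exact h2

theorem jn_mir {D : Finset (ℤ × ℤ)} {ω : Cfg} {U T : Set (ℤ × ℤ)} :
    Jn false (D.image msq) (ω ∘ msq) (mir ⁻¹' U) (mir ⁻¹' T) ↔ Jn false D ω U T := by
  refine ⟨fun h => ?_, jn_mir_aux⟩
  have h1 := jn_mir_aux h
  rw [im_msq_im] at h1
  have e1 : (ω ∘ msq) ∘ msq = ω := by funext v; simp [msq_msq]
  have e2 : ∀ U : Set (ℤ × ℤ), mir ⁻¹' (mir ⁻¹' U) = U := fun U => by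
    ext v; simp [mir_mir]
  rw [e1, e2, e2] at h1
  exact h1

theorem fz_mir (D Z : Finset (ℤ × ℤ)) (ζ : Cfg) (W : Set (ℤ × ℤ)) (ω : Cfg) :
    fz (D.image msq) (Z.image msq) (ζ ∘ msq) (mir ⁻¹' W) (ω ∘ msq) = fz D Z ζ W ω := by
  unfold fz
  have e1 : (∀ v ∈ Z.image msq, (ω ∘ msq) v = (ζ ∘ msq) v) ↔ ∀ v ∈ Z, ω v = ζ v := by
    constructor
    · intro h v hv
      have := h (msq v) (mem_im_msq.2 (by rwa [msq_msq]))
      simpa [msq_msq] using this
    · intro h v hv
      exact h _ (mem_im_msq.1 hv)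
  have e2 : D.image msq \ Z.image msq = (D \ Z).image msq := by
    ext v
    rw [mem_sdiff, mem_im_msq, mem_im_msq, mem_im_msq, mem_sdiff]
  have e3 : ((sites (Z.image msq) : Finset (ℤ × ℤ)) : Set (ℤ × ℤ)) = mir ⁻¹' (sites Z : Set (ℤ × ℤ)) := by
    ext v
    rw [mem_coe, mem_sites_msq]
    rfl
  rw [e2, e3, jn_mir]
  have key := and_congr_left (c := Jn false (D \ Z) ω (sites Z) W) (fun _ => e1)
  split_ifs with h1 h2 h2
  · rfl
  · exact absurd (key.1 h1) h2
  · exact absurd (key.2 h2) h1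
  · rfl

/-! ### the polygons -/

/-- The mirror image of the enlargement. -/
theorem PN_mir (hp : IsPolygon P.q) (hN : 0 < N) {t : ℕ} (ht : t ≤ P.m * N + N) :
    Enl.PN (mirq P.q) N t = mir (Enl.PN P.q N (P.m * N + N - t)) := by
  have hp' := isPolygon_mirq hp
  have hm := Nat.div_add_mod' t N
  have hj := Nat.mod_lt t hN
  set i := t / N with hi
  set s := t % N with hs
  have hcast : ∀ a : ℕ, a ≤ P.m + 1 → (1 - (a : ZMod P.m)) = ((P.m + 1 - a : ℕ) : ZMod P.m) := by
    intro a ha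
    rw [Nat.cast_sub ha]
    push_cast
    rw [ZMod.natCast_self]
    ring
  have hi1 : i ≤ P.m + 1 := by
    have : i * N ≤ (P.m + 1) * N := by rw [add_mul, one_mul]; omega
    exact Nat.le_of_mul_le_mul_right this hN
  have hs0 := Enl.pdir_step hp' i
  rw [← hm, Enl.PN_lin hN hj]
  rcases Nat.eq_zero_or_pos s with h0 | h0
  · rw [h0]
    have e1 : P.m * N + N - (i * N + 0) = (P.m + 1 - i) * N + 0 := by
      rw [Nat.sub_mul, add_mul, one_mul]; rfl
    rw [e1, Enl.PN_lin hN hN]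
    unfold mirq
    rw [hcast i hi1]
    simp [mir]
  · have hi2 : i ≤ P.m := by
      rcases Nat.lt_or_ge P.m i with h4 | h4
      · exfalso
        have : (P.m + 1) * N ≤ i * N := Nat.mul_le_mul_right N h4
        rw [add_mul, one_mul] at this
        omega
      · exact h4
    have e1 : P.m * N + N - (i * N + s) = (P.m - i) * N + (N - s) := by
      have : i * N ≤ P.m * N := Nat.mul_le_mul_right N hi2
      rw [Nat.sub_mul]; omega
    have e2 := Enl.pdir_step hp (P.m - i)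
    rw [e1, Enl.PN_lin hN (by omega)]
    have e3 : mirq P.q (i : ZMod P.m) = mir (P.q ((P.m - i : ℕ) + 1)) := by
      unfold mirq
      rw [hcast i hi1]
      congr 2
      rw [show P.m + 1 - i = (P.m - i) + 1 by omega]
      push_cast
      rfl
    have e4 : mirq P.q ((i : ZMod P.m) + 1) = mir (P.q (P.m - i : ℕ)) := by
      unfold mirq
      congr 2
      rw [Nat.cast_sub hi2, ZMod.natCast_self]
      ring
    rw [e4, e3] at hs0
    rw [e3]
    have e5 : dir (H825.pdir (mirq P.q) i) = mir (P.q (P.m - i : ℕ)) - mir (P.q ((P.m - i : ℕ) + 1)) := by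
      rw [hs0]; abel
    have e6 : dir (H825.pdir P.q (P.m - i)) = P.q ((P.m - i : ℕ) + 1) - P.q (P.m - i : ℕ) := by
      rw [e2]; abel
    rw [e5, e6]
    generalize P.q ((P.m - i : ℕ) + 1) = A
    generalize P.q (P.m - i : ℕ) = B
    have hsN : (s : ℤ) ≤ N := by exact_mod_cast hj.le
    rw [Nat.cast_sub hj.le]
    simp only [mir]
    ext
    · simp only [Prod.fst_add, Prod.smul_fst, smul_eq_mul, Prod.fst_sub]; ring
    · simp only [Prod.snd_add, Prod.smul_snd, smul_eq_mul, Prod.snd_sub]; ring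

theorem qS_mir (h : P.Ok ρ) (hN : 0 < N) (hev : Even N) {x : ℕ} (hx : x ≤ P.m * N + N / 2) :
    H825.Q.qS (Sh4.dat h) N (x : ZMod _) = mir (Enl.PN P.q N (P.m * N + N / 2 - x)) := by
  have h0 := m_pos h
  haveI : NeZero (Sh4.dat h).l := ⟨by show P.m ≠ 0; omega⟩
  obtain ⟨M, hM⟩ := hev
  unfold H825.Q.qS
  rw [tN_dat, Enl.qN_nat hN]
  show Enl.PN (mirq P.q) N (x + N / 2) = _
  rw [PN_mir h.poly hN (by omega)]
  congr 2
  omega

/-- The rotated polygon. -/
theorem isPolygon_rot (hp : IsPolygon P.q) : IsPolygon (rot P) := by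
  refine ⟨hp.1, fun x y hxy => ?_, fun i => ?_⟩
  · have := hp.2.1 hxy
    exact add_right_cancel this
  · obtain ⟨r, hr⟩ := hp.2.2 (i + P.k)
    refine ⟨r, ?_⟩
    unfold rot
    rw [← hr]
    congr 1
    ring

theorem encloses_rot (hD : Encloses P.q P.S) : Encloses (rot P) P.S := by
  intro v r
  rw [← hD v r]
  unfold rot
  constructor
  · rintro ⟨i, h1, h2⟩
    exact ⟨i + P.k, h1, by rw [← h2]; congr 1; ring⟩
  · rintro ⟨i, h1, h2⟩
    refine ⟨i - P.k, ?_, ?_⟩
    · rw [← h1]; congr 1; ring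
    · rw [← h2]; congr 1; ring

theorem PN_rot (hp : IsPolygon P.q) (hN : 0 < N) (t : ℕ) :
    Enl.PN (rot P) N t = Enl.PN P.q N (t + P.k * N) := by
  have hm := Nat.div_add_mod' t N
  have hj := Nat.mod_lt t hN
  set i := t / N with hi
  set s := t % N with hs
  have e1 := Enl.pdir_step (isPolygon_rot hp) i
  have e2 := Enl.pdir_step hp (i + P.k)
  have e3 : rot P (i : ZMod P.m) = P.q ((i + P.k : ℕ) : ZMod P.m) := by
    unfold rot; push_cast; rfl
  have e4 : rot P ((i : ZMod P.m) + 1) = P.q (((i + P.k : ℕ) : ZMod P.m) + 1) := by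
    unfold rot; push_cast; congr 1; ring
  rw [← hm, show i * N + s + P.k * N = (i + P.k) * N + s by ring, Enl.PN_lin hN hj,
    Enl.PN_lin hN hj, e3]
  rw [e3, e4] at e1
  have e5 : dir (H825.pdir (rot P) i) = dir (H825.pdir P.q (i + P.k)) := by
    rw [e2] at e1
    exact (add_left_cancel e1).symm
  rw [e5]

theorem rot_mir (h : P.Ok ρ) (hN : 0 < N) (hev : Even N) {y : ℕ} (h1 : ka P N ≤ y)
    (h2 : y ≤ P.m * N) : Enl.qN (rot P) N (N / 2) (y : ZMod (P.m * N)) =
      mir (H825.Q.qS (Sh4.dat h) N (((2 * P.m - P.k) * N - y : ℕ) : ZMod _)) := by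
  have h0 := m_pos h
  have g1 := h.k_lt
  have g2 := h.j_lt
  have g3 := h.l_lt
  haveI : NeZero P.m := ⟨by omega⟩
  rw [Enl.qN_nat hN, PN_rot h.poly hN]
  unfold ka at h1
  have e0 : (2 * P.m - P.k) * N = P.m * N + (P.m - P.k) * N := by
    rw [← add_mul]; congr 1; omega
  have e1 : P.m * N = (P.m - P.k) * N + P.k * N := by
    rw [← add_mul]; congr 1; omega
  rw [qS_mir h hN hev (by omega), mir_mir]
  have e2 : y + N / 2 + P.k * N = (P.m * N + N / 2 - ((2 * P.m - P.k) * N - y)) + P.m * N := by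
    omega
  rw [e2, Enl.PN_add_l hN]

/-! ### the domain -/

theorem D_mir (h : P.Ok ρ) (hN : 0 < N) :
    (Sh4.dat h).D N = (H825.enl P.S N).image msq := by
  have hN' : (0 : ℤ) < N := by exact_mod_cast hN
  ext v
  show v ∈ CA.enl (mirS P.S) N ↔ _
  rw [CL.mem_enl_iff hN, mem_mirS, mem_im_msq]
  have e : msq v ∈ H825.enl P.S N ↔ ((msq v).1 / (N : ℤ), (msq v).2 / (N : ℤ)) ∈ P.S :=
    CL.mem_enl_iff (S := P.S) hN
  rw [e]
  have e1 : (-1 - v.1) / (N : ℤ) = -1 - v.1 / N := by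
    have h1 := Int.mul_ediv_add_emod v.1 N
    have h2 := Int.emod_nonneg v.1 hN'.ne'
    have h3 := Int.emod_lt_of_pos v.1 hN'
    have e2 : -1 - v.1 = (N - 1 - v.1 % N) + N * (-1 - v.1 / N) := by linarith
    rw [e2, Int.add_mul_ediv_left _ _ hN'.ne', Int.ediv_eq_zero_of_lt (by omega) (by omega)]
    ring
  simp only [msq]
  rw [e1]

theorem dom_zero (N : ℕ) (P : Sh4) : dom N (0, 0) P = H825.enl P.S N := by
  unfold dom
  have : (fun v : ℤ × ℤ => v + (0, 0)) = id := by funext v; simp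
  rw [this, image_id]

theorem dom_mir (h : P.Ok ρ) (hN : 0 < N) : (dom N (0, 0) P).image msq = (Sh4.dat h).D N := by
  rw [dom_zero, D_mir h hN]

/-! ### Dobrushin configurations -/

theorem dob_ext (h : P.Ok ρ) (hN : 2 ≤ N) :
    Dob (QT.ext N (0, 0) P) (H825.enl P.S N) (Enl.qN (rot P) N (N / 2)) (ka P N) := by
  have h1 := H825.Q.dob_qN (isPolygon_rot h.poly) (encloses_rot h.encl) hN (N / 2) (ka P N)
  have e : QT.ext N (0, 0) P = etaW (H825.enl P.S N) (Enl.qN (rot P) N (N / 2)) (ka P N) := by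
    funext v
    unfold QT.ext
    have : v - (0, 0) = v := by simp
    rw [this]
    rfl
  rw [e]
  exact h1

theorem dob_msq (h : P.Ok ρ) (hN : 0 < N) (hev : Even N) {η : Cfg}
    (hη : Dob η ((Sh4.dat h).D N) (H825.Q.qS (Sh4.dat h) N) (ka P N)) :
    Dob (η ∘ msq) (H825.enl P.S N) (Enl.qN (rot P) N (N / 2)) (ka P N) := by
  have hD : (H825.enl P.S N) = ((Sh4.dat h).D N).image msq := by
    rw [D_mir h hN, im_msq_im]
  have g1 := h.k_lt
  have g2 := h.j_lt
  have g3 := h.l_lt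
  have hk : ka P N ≤ P.m * N := ka_le h
  have e0 : (2 * P.m - P.k) * N = P.m * N + ka P N := by
    unfold ka
    rw [← add_mul]; congr 1; omega
  constructor
  · exact (FK.f_sym msq (by simp [FK.syms, msq]; right; right; left; rfl)).1 _ hη.good
  · intro i j h1 h2 h3 h4 h5 h6
    rw [rot_mir h hN hev h1 h2, mir_even] at h5
    rw [rot_mir h hN hev h3 h4, mir_even] at h6
    rw [rot_mir h hN hev h1 h2, rot_mir h hN hev h3 h4, hD]
    refine outC_mir (hη.join _ _ ?_ ?_ ?_ ?_ h5 h6)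
    all_goals first | omega | (show _ ≤ P.m * N; omega)
  · intro s hs t ht h1 h2 h3
    have h4 := outC_mir h2
    rw [hD, im_msq_im] at h4
    have e1 : (η ∘ msq) ∘ msq = η := by funext v; simp [msq_msq]
    rw [e1] at h4
    rw [hD, mem_sites_msq] at hs ht
    obtain ⟨i, j, a1, a2, a3, a4, a5, a6⟩ := hη.sep (mir s) hs (mir t) ht ((mir_even s).2 h1) h4
      (fun h' => h3 (mir_inj h'))
    have a2' : i ≤ P.m * N := a2
    have a4' : j ≤ P.m * N := a4
    refine ⟨(2 * P.m - P.k) * N - i, (2 * P.m - P.k) * N - j, by omega, ?_, by omega, ?_, ?_, ?_⟩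
    · show _ ≤ P.m * N; omega
    · show _ ≤ P.m * N; omega
    · rw [rot_mir h hN hev (by omega) (by omega),
        show (2 * P.m - P.k) * N - ((2 * P.m - P.k) * N - i) = i by omega, a5, mir_mir]
    · rw [rot_mir h hN hev (by omega) (by omega),
        show (2 * P.m - P.k) * N - ((2 * P.m - P.k) * N - j) = j by omega, a6, mir_mir]

/-! ### the arc -/

theorem arcc_mir (h : P.Ok ρ) (hN : 0 < N) (hev : Even N) :
    mir ⁻¹' (arcc N (0, 0) P) = Wa (H825.Q.qS (Sh4.dat h) N) (ka P N) (lc P N) := by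
  have g1 := h.k_lt
  have g2 := h.j_lt
  have g3 := h.l_lt
  have hk : ka P N ≤ P.m * N := ka_le h
  have h5 := lc_add (N := N) h
  have hka : ka P N + P.k * N = P.m * N := by unfold ka; rw [← add_mul]; congr 1; omega
  have hjm : (P.m + 1 - P.j) * N + P.j * N = P.m * N + N := by
    rw [← add_mul, ← Nat.succ_mul]; congr 1; omega
  obtain ⟨M, hM⟩ := hev
  ext z
  constructor
  · rintro ⟨i, h1, h2, h3⟩
    have h3' : Enl.PN P.q N i = mir z := by rw [← h3]; simp
    refine ⟨P.m * N + N / 2 - i, by omega, by omega, ?_⟩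
    rw [qS_mir h hN ⟨M, hM⟩ (by omega),
      show P.m * N + N / 2 - (P.m * N + N / 2 - i) = i by omega, h3', mir_mir]
  · rintro ⟨j, h1, h2, h3⟩
    refine ⟨P.m * N + N / 2 - j, by omega, by omega, ?_⟩
    rw [qS_mir h hN ⟨M, hM⟩ (by omega)] at h3
    rw [← h3, mir_mir]
    simp

/-- **The mirror image of `PZ`.** -/
theorem PZ_mir {μ : ℝ} (hμ : 0 < 2 * Real.cos μ) (h : P.Ok ρ) (hN : 2 ≤ N) (hev : Even N)
    {Z : Finset (ℤ × ℤ)} (hZ : Z ⊆ (Sh4.dat h).D N) (ζ : Cfg) :
    PZ μ N (0, 0) P (Z.image msq) (ζ ∘ msq) =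
      Ex (2 * Real.cos μ) ((Sh4.dat h).D N)
        (etaW ((Sh4.dat h).D N) (H825.Q.qS (Sh4.dat h) N) (ka P N))
        (fz ((Sh4.dat h).D N) Z ζ (Wa (H825.Q.qS (Sh4.dat h) N) (ka P N) (lc P N))) := by
  have hN0 : 0 < N := by omega
  set η := etaW ((Sh4.dat h).D N) (H825.Q.qS (Sh4.dat h) N) (ka P N) with hη
  have hdob : Dob η ((Sh4.dat h).D N) (H825.Q.qS (Sh4.dat h) N) (ka P N) :=
    H825.Q.dob_qN (Sh4.dat h).poly (Sh4.dat h).enc hN _ _
  have hD : (H825.enl P.S N) = ((Sh4.dat h).D N).image msq := by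
    rw [D_mir h hN0, im_msq_im]
  have hloc : Loc (H825.enl P.S N)
      (fz (H825.enl P.S N) (Z.image msq) (ζ ∘ msq) (arcc N (0, 0) P)) := by
    intro ω ω' hw
    unfold fz
    have e1 : (∀ v ∈ Z.image msq, ω v = (ζ ∘ msq) v) ↔ ∀ v ∈ Z.image msq, ω' v = (ζ ∘ msq) v := by
      refine forall₂_congr fun v hv => ?_
      rw [hw v]
      rw [hD]
      exact image_subset_image hZ hv
    have e2 : H632.cs false ω ∩ (↑(H825.enl P.S N \ Z.image msq) : Set (ℤ × ℤ)) =
        H632.cs false ω' ∩ (↑(H825.enl P.S N \ Z.image msq) : Set (ℤ × ℤ)) := by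
      ext v
      refine and_congr_left fun hv => ?_
      have hv' : v ∈ H825.enl P.S N := (mem_sdiff.1 (mem_coe.1 hv)).1
      show ω v = false ↔ ω' v = false
      rw [show (ω v) = ω' v from hw v hv']
    have e3 : Jn false (H825.enl P.S N \ Z.image msq) ω (sites (Z.image msq)) (arcc N (0, 0) P) ↔
        Jn false (H825.enl P.S N \ Z.image msq) ω' (sites (Z.image msq)) (arcc N (0, 0) P) := by
      unfold Jn
      rw [e2]
    have key := and_congr e1 e3
    split_ifs with h1 h2 h2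
    · rfl
    · exact absurd (key.1 h1) h2
    · exact absurd (key.2 h2) h1
    · rfl
  unfold PZ
  rw [dom_zero]
  rw [CAQ.J.ex_dob (k := ka P N) (q := Enl.qN (rot P) N (N / 2))
    (Enl.isPolygon_qN hN0 (isPolygon_rot h.poly) _) (Enl.encloses_qN hN0 (isPolygon_rot h.poly)
      (encloses_rot h.encl) _) (ka_le h) (dob_ext h hN) (dob_msq h hN0 hev hdob) hμ hloc]
  rw [(FK.f_sym msq (by simp [FK.syms, msq]; right; right; left; rfl)).2 _ _ _ _ hμ hdob.good,
    ← D_mir h hN0]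
  congr 1
  funext ω
  have e4 := fz_mir ((Sh4.dat h).D N) Z ζ
    (Wa (H825.Q.qS (Sh4.dat h) N) (ka P N) (lc P N)) ω
  rw [← hD, ← arcc_mir h hN0 hev] at e4
  have e5 : mir ⁻¹' (mir ⁻¹' (arcc N (0, 0) P)) = arcc N (0, 0) P := by
    ext v; simp [mir_mir]
  rw [e5, arcc_mir h hN0 hev] at e4
  exact e4

end Vale.Agent.P167.BQ460
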